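import Vale.Agent.P354SC.Wd
import Vale.Agent.P354SA.Defs
import Vale.Agent.P354XA.Lid

/-!
The far chart: its derivative, and jets of functions with bounds along words.
-/

open scoped ContDiff
open Set Filter Topology

noncomputable section

namespace Vale.Agent.P354SC

open Vale.Agent.P354n (R4)
open Vale.Agent.P354I (rm rp)
open Vale.Agent.P354R (Del)
open Vale.Agent.P354E (sg sg_sq)
open Vale.Agent.P354XE Vale.Agent.P354XA
open Vale.Agent.P354SA (Th ps Fq yc ey e0 e1)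
open Vale.Agent.P354YI (Oj)
open Real (cos sin)

/-- From bounds along words to jets. -/
theorem oj_pull {J E E' ι : Type} [NormedAddCommGroup E] [NormedSpace ℝ E] [NormedAddCommGroup E']
    [NormedSpace ℝ E'] [Fintype ι] {V : J → ι → E → E} {Θ : J → E' → E} {x : J → E'}
    {c : ι → J → E' → E' →L[ℝ] ℝ} {μ : J → ℝ} (hs : ∀ j, ContDiffAt ℝ ∞ (Θ j) (x j))
    (hΘ : ∀ j, ∀ᶠ y in 𝓝 (x j), ∀ v, fderiv ℝ (Θ j) y v = ∑ i, c i j y v • V j i (Θ j y))
    (n : ℕ) : ∀ {f : J → E → ℝ}, (∀ i, Oj n x (c i) 1) →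
      (∀ j, W (V j) n (f j) (Θ j (x j)) (μ j)) → Oj n x (fun j y => f j (Θ j y)) μ := by
  have h0 : ∀ {n} {f : J → E → ℝ}, (∀ j, W (V j) n (f j) (Θ j (x j)) (μ j)) →
      Oj 0 x (fun j y => f j (Θ j y)) μ := fun h =>
    .zero (fun j => (h j).sm.comp _ (hs j)) (fun j => (h j).nn)
      ⟨1, fun j => by rw [one_mul]; exact (h j).le⟩
  induction n with
  | zero => exact fun _ h => h0 h
  | succ n ih =>
    intro f hc h
    refine (h0 h).succ ((Oj.sum Finset.univ (fun j => (h j).nn) fun i _ =>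
      (ih (fun i => (hc i).pred) fun j => (h j).der i).smull (hc i).pred).congr fun j => ?_)
    filter_upwards [P354YI.fd_comp (h j).sm (hs j), hΘ j] with y h1 h2
    rw [h1]
    refine ContinuousLinearMap.ext fun v => ?_
    simp only [ContinuousLinearMap.comp_apply, h2, map_sum, map_smul, sum_apply, smul_apply,
      smul_eq_mul, Dv, mul_comm]

/-- The stereographic parametrisation, its tangent vectors, and the rotation. -/
def qq (y : ℝ × ℝ) : ℝ := 1 + y.1 ^ 2 + y.2 ^ 2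
def om (σ : Bool) (y : ℝ × ℝ) : Fin 3 → ℝ :=
  ![2 * y.1 / qq y, 2 * y.2 / qq y, sg σ * ((1 - y.1 ^ 2 - y.2 ^ 2) / qq y)]
def tg (σ : Bool) (y : ℝ × ℝ) : Fin 2 → Fin 3 → ℝ :=
  ![![2 * (qq y - 2 * y.1 ^ 2) / qq y ^ 2, -4 * y.1 * y.2 / qq y ^ 2, -4 * sg σ * y.1 / qq y ^ 2],
    ![-4 * y.1 * y.2 / qq y ^ 2, 2 * (qq y - 2 * y.2 ^ 2) / qq y ^ 2, -4 * sg σ * y.2 / qq y ^ 2]]
def rt (ψ : ℝ) (w : Fin 3 → ℝ) : Fin 3 → ℝ :=
  ![cos ψ * w 0 - sin ψ * w 1, sin ψ * w 0 + cos ψ * w 1, w 2]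
/-- The coefficients of the rotations in the angular coordinate fields. -/
def kc (σ : Bool) (ψ : ℝ) (y : ℝ × ℝ) : Fin 2 → Fin 3 → ℝ :=
  ![fun i => sg σ * rt ψ (tg σ y 1) i, fun i => -sg σ * rt ψ (tg σ y 0) i]

theorem qq_pos (y : ℝ × ℝ) : 0 < qq y := by unfold qq; positivity

variable {M a c : ℝ} {σ : Bool} {z : R4}

theorem Th_eq (M a : ℝ) (σ : Bool) (c : ℝ) : Th M a σ c = fun z => (c - z.1 + psi M a z.2.1,
    z.2.1 * rt (ps M a z.2.1) (om σ z.2.2) 0, z.2.1 * rt (ps M a z.2.1) (om σ z.2.2) 1,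
    z.2.1 * rt (ps M a z.2.1) (om σ z.2.2) 2) := rfl

theorem om_sq (σ : Bool) (y : ℝ × ℝ) : om σ y 0 ^ 2 + om σ y 1 ^ 2 + om σ y 2 ^ 2 = 1 := by
  have := (qq_pos y).ne'
  have h := sg_sq σ
  simp only [om, Matrix.cons_val]
  field_simp
  unfold qq
  linear_combination (1 - y.1 ^ 2 - y.2 ^ 2) ^ 2 * h

theorem rd_Th (h : 0 ≤ z.2.1) : rd (Th M a σ c z) = z.2.1 := by
  refine (pow_left_inj₀ (rd_nonneg _) h two_ne_zero).1 ?_
  rw [rd_sq, Th_eq]
  simp only [ip, rt, Matrix.cons_val]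
  linear_combination z.2.1 ^ 2 * om_sq σ z.2.2 + z.2.1 ^ 2 *
    (om σ z.2.2 0 ^ 2 + om σ z.2.2 1 ^ 2) * Real.cos_sq_add_sin_sq (ps M a z.2.1)

theorem ur_Th (h : 0 ≤ z.2.1) : ur M a (Th M a σ c z) = c - z.1 := by
  rw [ur_eq, rd_Th h, Th_eq]
  simp

theorem ps_deriv (h : |a| < M) {r : ℝ} (hr : rp M a < r) :
    HasDerivAt (ps M a) (2 * a / Del M a r) r := by
  obtain ⟨-, -, h2, -, -, h5, -⟩ := hor h
  have a1 := (sub_pos.2 hr).ne'
  have a2 := (sub_pos.2 (h2.trans hr)).ne'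
  have a3 := (sub_pos.2 h2).ne'
  refine (((((hasDerivAt_id r).sub_const _).log a1).sub
    (((hasDerivAt_id r).sub_const _).log a2)).const_mul _).congr_deriv ?_
  rw [h5]
  simp only [id]
  field_simp
  ring

theorem ps_cd (h : |a| < M) {r : ℝ} (hr : rp M a < r) : ContDiffAt ℝ ∞ (ps M a) r :=
  contDiffAt_const.mul (((contDiffAt_id.sub contDiffAt_const).log (sub_pos.2 hr).ne').sub
    ((contDiffAt_id.sub contDiffAt_const).log (sub_pos.2 ((hor h).2.2.1.trans hr)).ne'))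

theorem qq_cd : ContDiff ℝ ∞ qq := by unfold qq; fun_prop

theorem om_cd (σ : Bool) (i : Fin 3) : ContDiff ℝ ∞ fun y => om σ y i := by
  have := qq_cd
  have := fun y => (qq_pos y).ne'
  fin_cases i <;> simp only [om, Matrix.cons_val, Fin.zero_eta, Fin.mk_one, Fin.reduceFinMk] <;>
    fun_prop (disch := assumption)

theorem tg_cd (σ : Bool) (b : Fin 2) (i : Fin 3) : ContDiff ℝ ∞ fun y => tg σ y b i := by
  have := qq_cd
  have := fun y => pow_ne_zero 2 (qq_pos y).ne'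
  fin_cases i <;> fin_cases b <;>
    simp only [tg, Matrix.cons_val, Fin.zero_eta, Fin.mk_one, Fin.reduceFinMk] <;>
    fun_prop (disch := assumption)

theorem om_fd (σ : Bool) (i : Fin 3) (y : ℝ × ℝ) : HasFDerivAt (fun y => om σ y i)
    (tg σ y 0 i • ContinuousLinearMap.fst ℝ ℝ ℝ + tg σ y 1 i • ContinuousLinearMap.snd ℝ ℝ ℝ) y := by
  have n := (qq_pos y).ne'
  have h1 : HasFDerivAt (fun y : ℝ × ℝ => y.1) (.fst ℝ ℝ ℝ) y := hasFDerivAt_fst
  have h2 : HasFDerivAt (fun y : ℝ × ℝ => y.2) (.snd ℝ ℝ ℝ) y := hasFDerivAt_snd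
  have hq : HasFDerivAt qq _ y := ((h1.pow 2).const_add 1).add (h2.pow 2)
  have hi := (hasDerivAt_inv n).comp_hasFDerivAt y hq
  fin_cases i
  · refine ((h1.const_mul 2).mul hi).congr_fderiv (ContinuousLinearMap.ext fun v => ?_)
    simp [tg]
    field_simp
    ring
  · refine ((h2.const_mul 2).mul hi).congr_fderiv (ContinuousLinearMap.ext fun v => ?_)
    simp [tg]
    field_simp
    ring
  · refine (((((h1.pow 2).const_sub 1).sub (h2.pow 2)).mul hi).const_mul (sg σ)).congr_fderiv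
      (ContinuousLinearMap.ext fun v => ?_)
    simp [tg]
    field_simp
    unfold qq
    ring

theorem Th_cd (h : |a| < M) (hr : rp M a < z.2.1) : ContDiffAt ℝ ∞ (Th M a σ c) z := by
  have h1 : ContDiffAt ℝ ∞ (fun z : R4 => ps M a z.2.1) z :=
    (ps_cd h hr).comp z (f := fun z : R4 => z.2.1) (by fun_prop)
  have h2 : ContDiffAt ℝ ∞ (fun z : R4 => psi M a z.2.1) z :=
    (psi_cd h hr).comp z (f := fun z : R4 => z.2.1) (by fun_prop)
  have h3 : ∀ i, ContDiffAt ℝ ∞ (fun z : R4 => om σ z.2.2 i) z := fun i =>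
    (om_cd σ i).contDiffAt.comp z (f := fun z : R4 => z.2.2) (by fun_prop)
  have := h3 0
  have := h3 1
  have := h3 2
  rw [Th_eq]
  simp only [rt, Matrix.cons_val]
  fun_prop

def cR : R4 →L[ℝ] ℝ := (ContinuousLinearMap.fst ℝ ℝ _).comp (.snd ℝ ℝ _)
def cY : R4 →L[ℝ] ℝ × ℝ := (ContinuousLinearMap.snd ℝ ℝ _).comp (.snd ℝ ℝ _)
@[simp] theorem cR_ap (v : R4) : cR v = v.2.1 := rfl
@[simp] theorem cY_ap (v : R4) : cY v = v.2.2 := rfl

/-- The derivative of the chart. -/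
theorem Th_fd (h : |a| < M) (hr : rp M a < z.2.1) (v : R4) : fderiv ℝ (Th M a σ c) z v =
    -v.1 • eT + v.2.1 • Lo M a (Th M a σ c z) +
      ∑ i, (∑ b, yc b v * kc σ (ps M a z.2.1) z.2.2 b i) • Om i (Th M a σ c z) := by
  have r0 : 0 < z.2.1 := ((hor h).2.1.trans_lt (hor h).2.2.1).trans hr
  have hR : HasFDerivAt (fun z : R4 => z.2.1) cR z := cR.hasFDerivAt
  have hY : HasFDerivAt (fun z : R4 => z.2.2) cY z := cY.hasFDerivAt
  have h1 := (ps_deriv h hr).comp_hasFDerivAt z hR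
  have h2 := (psi_deriv h hr).comp_hasFDerivAt z hR
  have h3 := fun i => (om_fd σ i z.2.2).comp z hY
  have := (((hasFDerivAt_fst.const_sub c).add h2).prodMk ((hR.mul ((h1.cos.mul (h3 0)).sub
    (h1.sin.mul (h3 1)))).prodMk ((hR.mul ((h1.sin.mul (h3 0)).add (h1.cos.mul (h3 1)))).prodMk
    (hR.mul (h3 2))))).fderiv
  have e : fderiv ℝ (Th M a σ c) z = _ := this
  rw [e, Lo, rd_Th r0.le, Th_eq]
  have n := (qq_pos z.2.2).ne'
  have := r0.ne'
  have s : sg σ ^ 2 = 1 := by rw [sq, sg_sq]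
  have t := Real.cos_sq_add_sin_sq (ps M a z.2.1)
  simp [Fin.sum_univ_three, Om, eT, lo1, kc, rt, yc]
  clear e h1 h2 h3 hR hY
  refine ⟨by ring, ?_, ?_, ?_⟩ <;> simp [om, tg] <;> field_simp <;> unfold qq
  · rw [s]
    ring
  · rw [s]
    ring
  · linear_combination 4 * sg σ * z.2.1 * (1 + z.2.2.1 ^ 2 + z.2.2.2 ^ 2) *
      (z.2.2.1 * v.2.2.1 + z.2.2.2 * v.2.2.2) * t

/-- A gain for the derivatives in one direction. -/
theorem oj_gain {J E : Type} [NormedAddCommGroup E] [NormedSpace ℝ E] {x : J → E} {A : J → E →L[ℝ] E}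
    (P : E →L[ℝ] E) (φ : E →L[ℝ] ℝ) (e : E) {l ν : J → ℝ} (hl : ∀ j, 1 ≤ l j)
    (hA : ∀ j v, A j v = P v + (l j * φ v) • e) (n : ℕ) :
    ∀ {V : Type} [NormedAddCommGroup V] [NormedSpace ℝ V] {f : J → E → V} {μ : J → ℝ},
      Oj n x f μ → Oj n x (fun j y => fderiv ℝ (f j) y e) ν →
      Oj n 0 (fun j ξ => f j (x j + A j ξ)) fun j => μ j + l j ^ n * ν j := by
  have s : ∀ j, ContDiffAt ℝ ∞ (fun ξ => x j + A j ξ) 0 := fun j =>
    contDiffAt_const.add (A j).contDiff.contDiffAt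
  have e0 : ∀ j, x j + A j 0 = x j := fun j => by simp
  have h0 : ∀ {V : Type} [NormedAddCommGroup V] [NormedSpace ℝ V] {f : J → E → V} {μ : J → ℝ} {n},
      Oj n x f μ → Oj 0 0 (fun j ξ => f j (x j + A j ξ)) μ := fun h =>
    .zero (fun j => P354YI.at_comp (by rw [Pi.zero_apply, e0]; exact h.sm j) (s j)) h.nn
      (h.val.imp fun _ k j => by simpa using k.2 j)
  have p : ∀ j n, 1 ≤ l j ^ n := fun j n => one_le_pow₀ (hl j)
  induction n with
  | zero =>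
    exact fun h k => (h0 h).mono le_rfl fun j => le_add_of_nonneg_right (by simpa using k.nn j)
  | succ n ih =>
    intro V _ _ f μ h k
    have n1 := h.nn
    have n2 := k.nn
    have a := ih h.fd (k.fd.congr fun j => ?_)
    have b := (ih k.pred (k.fd.clm (ContinuousLinearMap.apply ℝ V e))).bil
      (ContinuousLinearMap.smulRightL ℝ E V).flip
      (Oj.const (m := n) (x := 0) (v := fun j => l j • φ) (μ := l) (fun j => by linarith [hl j])
        ⟨‖φ‖, fun j => by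
          rw [norm_smul, Real.norm_of_nonneg (by linarith [hl j]), mul_comm]⟩)
    have q : ∀ j, 0 ≤ μ j + l j ^ (n + 1) * ν j := fun j =>
      add_nonneg (n1 j) (mul_nonneg (by linarith [p j (n + 1)]) (n2 j))
    refine ((h0 h).mono le_rfl fun j => le_add_of_nonneg_right
      (mul_nonneg (by linarith [p j (n + 1)]) (n2 j))).succ ((((a.cl (Oj.cst P)).mono le_rfl
        fun j => ?_).add (b.wt (c := 2) q fun j => ?_)).congr fun j => ?_)
    · exact add_le_add le_rfl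
        (mul_le_mul_of_nonneg_right (pow_le_pow_right₀ (hl j) n.le_succ) (n2 j))
    · have := mul_le_mul_of_nonneg_right (p j n) (n2 j)
      have := hl j
      simp only [Pi.mul_apply, pow_succ]
      nlinarith [n1 j]
    · filter_upwards [P354YI.fd_comp (G := f j) (by rw [Pi.zero_apply, e0]; exact h.sm j) (s j)]
        with y hy
      rw [hy, fderiv_const_add, (A j).fderiv]
      refine ContinuousLinearMap.ext fun v => ?_
      simp [hA, mul_smul]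
    · filter_upwards [((h.sm j).of_le (P354YI.le_inf 2)).eventually (by simp)] with y hy
      refine ContinuousLinearMap.ext fun v => ?_
      rw [fderiv_clm_apply ((hy.fderiv_right (m := 1) le_rfl).differentiableAt (by simp))
        (differentiableAt_const _), (hy.isSymmSndFDerivAt (by simp)).eq e v]
      simp

section scal
variable {J E : Type} [NormedAddCommGroup E] [NormedSpace ℝ E] {x : J → E} {n : ℕ}
  {f g : J → E → ℝ} {μ ν : J → ℝ}

theorem o_mul (h : Oj n x f μ) (k : Oj n x g ν) : Oj n x (fun j y => f j y * g j y) (μ * ν) :=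
  h.bil (ContinuousLinearMap.mul ℝ ℝ) k

theorem o_mull (h : Oj n x f μ) (k : Oj n x g 1) : Oj n x (fun j y => f j y * g j y) μ := h.smull k
theorem o_mulr (h : Oj n x f 1) (k : Oj n x g μ) : Oj n x (fun j y => f j y * g j y) μ := h.smulr k
theorem o_sm (r : ℝ) (k : Oj n x g μ) : Oj n x (fun j y => r * g j y) μ := (Oj.cst r).smulr k

theorem o_fd {V : Type} [NormedAddCommGroup V] [NormedSpace ℝ V] {f : J → E → V}
    (h : Oj n x f μ) : Oj (n - 1) x (fun j => fderiv ℝ (f j)) μ ∨ n = 0 := by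
  cases n with
  | zero => exact .inr rfl
  | succ n => exact .inl h.fd

/-- A fixed smooth map near a compact set. -/
theorem o_fix {V U : Type} [NormedAddCommGroup V] [NormedSpace ℝ V] [NormedAddCommGroup U]
    [NormedSpace ℝ U] {f : J → E → V} (h : Oj n x f 1) {K : Set V} (hK : IsCompact K) {F : V → U}
    (hF : ∀ y ∈ K, ContDiffAt ℝ ∞ F y) (hx : ∀ j, f j (x j) ∈ K) :
    Oj n x (fun j y => F (f j y)) 1 := by
  rcases o_fd h with k | rfl
  · exact Oj.comp h.sm n k (Oj.fix hK hF hx)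
  · have := Oj.fix (m := 0) hK hF hx
    exact .zero (fun j => (hF _ (hx j)).comp _ (h.sm j)) h.nn (this.val.imp fun _ k => k.2)

/-- A smooth function on the positive axis. -/
theorem o_pos (h : Oj n x f 1) {c : ℝ} (c0 : 0 < c) (hc : ∀ j, c ≤ f j (x j)) {F : ℝ → ℝ}
    (hF : ∀ y, 0 < y → ContDiffAt ℝ ∞ F y) : Oj n x (fun j y => F (f j y)) 1 :=
  let ⟨C, _, hC⟩ := h.val
  o_fix h (isCompact_Icc (a := c) (b := C)) (fun y hy => hF y (c0.trans_le hy.1)) fun j =>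
    ⟨hc j, (le_abs_self _).trans (by simpa using hC j)⟩

theorem o_inv (h : Oj n x f 1) {c : ℝ} (c0 : 0 < c) (hc : ∀ j, c ≤ f j (x j)) :
    Oj n x (fun j y => (f j y)⁻¹) 1 := o_pos h c0 hc fun _ hy => contDiffAt_inv ℝ hy.ne'

theorem o_par {r : J → ℝ} (hr : ∀ j, 0 ≤ r j) : Oj n x (fun j _ => r j) r :=
  .const hr ⟨1, fun j => by rw [one_mul, Real.norm_of_nonneg (hr j)]⟩

theorem o_bd {r : J → ℝ} {C : ℝ} (hr : ∀ j, |r j| ≤ C) : Oj n x (fun j _ => r j) 1 :=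
  .const (fun _ => zero_le_one) ⟨C, fun j => by simpa using hr j⟩

theorem o_lin {V : Type} [NormedAddCommGroup V] [NormedSpace ℝ V] (L : E →L[ℝ] V) :
    Oj n (0 : J → E) (fun _ y => L y) 1 :=
  Oj.fix isCompact_singleton (fun _ _ => L.contDiff.contDiffAt) fun _ => rfl

theorem o_cs (hs : ∀ j, ContDiffAt ℝ ∞ (f j) (x j)) (h : Oj (n - 1) x (fun j => fderiv ℝ (f j)) 1) :
    Oj n x (fun j y => cos (f j y)) 1 ∧ Oj n x (fun j y => sin (f j y)) 1 :=
  ⟨Oj.comp hs n h (.of1 (B := 1) (fun _ => Real.contDiff_cos.contDiffAt) fun j k _ => by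
      rw [norm_iteratedFDeriv_eq_norm_iteratedDeriv]
      exact Real.abs_iteratedDeriv_cos_le_one _ _),
    Oj.comp hs n h (.of1 (B := 1) (fun _ => Real.contDiff_sin.contDiffAt) fun j k _ => by
      rw [norm_iteratedFDeriv_eq_norm_iteratedDeriv]
      exact Real.abs_iteratedDeriv_sin_le_one _ _)⟩

end scal

/-- The dilation of the radial variable. -/
def dL (r : ℝ) : R4 →L[ℝ] R4 := (ContinuousLinearMap.fst ℝ ℝ _).prod ((r • cR).prod cY)
@[simp] theorem dL_ap (r : ℝ) (v : R4) : dL r v = (v.1, r * v.2.1, v.2.2) := rfl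
def ds (z ξ : R4) : R4 := z + dL z.2.1 ξ
theorem ds_zero (z : R4) : ds z 0 = z := by simp [ds]
theorem ds_r (z ξ : R4) : (ds z ξ).2.1 = z.2.1 * (1 + ξ.2.1) := by simp [ds, mul_add]
theorem ds_y (z ξ : R4) : (ds z ξ).2.2 = z.2.2 + ξ.2.2 := rfl
theorem ds_fd (z ξ : R4) : HasFDerivAt (ds z) (dL z.2.1) ξ := (dL _).hasFDerivAt.const_add z
theorem ds_cd (z : R4) : ContDiff ℝ ∞ (ds z) := contDiff_const.add (dL _).contDiff

def cy (b : Fin 2) : R4 →L[ℝ] ℝ :=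
  ![(ContinuousLinearMap.fst ℝ ℝ ℝ).comp cY, (ContinuousLinearMap.snd ℝ ℝ ℝ).comp cY] b
theorem cy_ap (b : Fin 2) (v : R4) : cy b v = yc b v := by fin_cases b <;> rfl

/-- A family of points of the chart. -/
structure Adm {J : Type} (μ K : ℝ) (M a : J → ℝ) (z : J → R4) : Prop where
  ha : ∀ j, |a j| < M j
  hM : ∀ j, M j ≤ μ
  hr : ∀ j, 4 * μ + 1 ≤ (z j).2.1
  hK : ∀ j, ‖(z j).2.2‖ ≤ K

namespace Adm

variable {J : Type} {μ K : ℝ} {M a c : J → ℝ} {z : J → R4} (h : Adm μ K M a z) {n : ℕ}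
include h

theorem M0 (j : J) : 0 < M j := (abs_nonneg _).trans_lt (h.ha j)
theorem r1 (j : J) : 1 ≤ (z j).2.1 := by linarith [h.hr j, h.hM j, h.M0 j]
theorem r0 (j : J) : 0 < (z j).2.1 := one_pos.trans_le (h.r1 j)
theorem rp_lt (j : J) : rp (M j) (a j) < (z j).2.1 := by
  linarith [(hor (h.ha j)).2.2.2.1, h.hr j, h.hM j, h.M0 j]
theorem Mr (j : J) : |M j / (z j).2.1| ≤ 1 / 4 := by
  rw [abs_of_pos (div_pos (h.M0 j) (h.r0 j)), div_le_iff₀ (h.r0 j)]
  linarith [h.hr j, h.hM j]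
theorem ar (j : J) : |a j / (z j).2.1| ≤ 1 / 4 := by
  rw [abs_div, abs_of_pos (h.r0 j), div_le_iff₀ (h.r0 j)]
  linarith [h.hr j, h.hM j, h.ha j]

theorem ev (j : J) : ∀ᶠ ξ in 𝓝 (0 : R4), rp (M j) (a j) < (ds (z j) ξ).2.1 :=
  ((ds_cd _).continuous.snd.fst.continuousAt).eventually_const_lt
    (by simp only [ds_zero]; exact h.rp_lt j)

theorem ev0 (j : J) : ∀ᶠ ξ in 𝓝 (0 : R4), 0 < (ds (z j) ξ).2.1 :=
  (h.ev j).mono fun _ k => ((hor (h.ha j)).2.1.trans_lt (hor (h.ha j)).2.2.1).trans k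

omit h in
theorem o_x : Oj n (0 : J → R4) (fun _ ξ => 1 + ξ.2.1) 1 := (Oj.cst 1).add (o_lin cR)

omit h in
theorem o_xi : Oj n (0 : J → R4) (fun _ ξ => (1 + ξ.2.1)⁻¹) 1 :=
  o_inv o_x one_pos fun _ => by simp

theorem o_r : Oj n 0 (fun j ξ => (ds (z j) ξ).2.1) fun j => (z j).2.1 :=
  (o_mull (o_par fun j => (h.r0 j).le) o_x).congr' fun _ _ => ds_r _ _

theorem o_ri : Oj n 0 (fun j ξ => (ds (z j) ξ).2.1⁻¹) fun j => (z j).2.1⁻¹ :=
  (o_mull (o_par fun j => inv_nonneg.2 (h.r0 j).le) o_xi).congr' fun _ _ => by rw [ds_r, mul_inv]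

theorem o_y : Oj n 0 (fun j ξ => (ds (z j) ξ).2.2) 1 :=
  (Oj.const (fun _ => zero_le_one) ⟨K, fun j => by simpa using h.hK j⟩).add (o_lin cY)

theorem o_fy {F : ℝ × ℝ → ℝ} (hF : ContDiff ℝ ∞ F) : Oj n 0 (fun j ξ => F (ds (z j) ξ).2.2) 1 :=
  o_fix h.o_y (isCompact_closedBall 0 K) (fun _ _ => hF.contDiffAt) fun j => by
    rw [Pi.zero_apply, ds_zero, mem_closedBall_zero_iff]
    exact h.hK j

/-- The inverse of the function Del. -/
theorem o_Di : Oj n 0 (fun j ξ => (Del (M j) (a j) (ds (z j) ξ).2.1)⁻¹)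
    fun j => (z j).2.1⁻¹ * (z j).2.1⁻¹ := by
  have k := o_inv (((o_mull (o_x (J := J) (n := n)) o_x).sub (o_sm 2 (o_mull (o_bd h.Mr) o_x))).add
    (o_mull (o_bd h.ar) (o_bd h.ar))) (c := 1 / 2) one_half_pos fun j => by
      have := (abs_le.1 (h.Mr j)).2
      simp only [Pi.zero_apply, Prod.snd_zero, Prod.fst_zero, add_zero, mul_one]
      nlinarith [mul_self_nonneg (a j / (z j).2.1)]
  refine (o_mull (o_par fun j => mul_self_nonneg (z j).2.1⁻¹) k).congr' fun j ξ => ?_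
  have := (h.r0 j).ne'
  rw [ds_r, ← mul_inv, ← mul_inv, Del]
  congr 1
  field_simp

theorem ps_sm (j : J) : ContDiffAt ℝ ∞ (fun ξ => ps (M j) (a j) (ds (z j) ξ).2.1) 0 :=
  P354YI.at_comp (ps_cd (h.ha j) (by rw [ds_zero]; exact h.rp_lt j)) (ds_cd _).contDiffAt.snd.fst

theorem o_a : Oj n (0 : J → R4) (fun j _ => a j) 1 :=
  o_bd fun j => ((h.ha j).le.trans (h.hM j))
theorem o_M : Oj n (0 : J → R4) (fun j _ => M j) 1 :=
  o_bd fun j => ((abs_of_pos (h.M0 j)).le.trans (h.hM j))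

theorem ri1 (j : J) : (z j).2.1⁻¹ ≤ 1 := inv_le_one_of_one_le₀ (h.r1 j)

theorem o_ps : Oj n 0 (fun j => fderiv ℝ fun ξ => ps (M j) (a j) (ds (z j) ξ).2.1)
    fun j => (z j).2.1⁻¹ := by
  refine (((o_mul (o_mulr (o_sm 2 h.o_a) h.o_Di) (o_par fun j => (h.r0 j).le)).smull
    (Oj.cst cR)).mono le_rfl fun j => ?_).congr fun j => (h.ev j).mono fun ξ k => ?_
  · simp [(h.r0 j).ne']
  · have := ((ps_deriv (h.ha j) k).comp_hasFDerivAt ξ (cR.hasFDerivAt.comp ξ (ds_fd _ ξ))).fderiv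
    refine this.trans (ContinuousLinearMap.ext fun v => ?_)
    simp [div_eq_mul_inv]
    ring

theorem o_rt {w : ℝ × ℝ → Fin 3 → ℝ} (hw : ∀ i, ContDiff ℝ ∞ fun y => w y i) (i : Fin 3) :
    Oj n 0 (fun j ξ => rt (ps (M j) (a j) (ds (z j) ξ).2.1) (w (ds (z j) ξ).2.2) i) 1 := by
  obtain ⟨h1, h2⟩ := o_cs (n := n) h.ps_sm (h.o_ps.mono le_rfl h.ri1)
  fin_cases i
  · exact (o_mull h1 (h.o_fy (hw 0))).sub (o_mull h2 (h.o_fy (hw 1)))
  · exact (o_mull h2 (h.o_fy (hw 0))).add (o_mull h1 (h.o_fy (hw 1)))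
  · exact h.o_fy (hw 2)

theorem o_kc (σ : Bool) (b : Fin 2) (i : Fin 3) :
    Oj n 0 (fun j ξ => kc σ (ps (M j) (a j) (ds (z j) ξ).2.1) (ds (z j) ξ).2.2 b i) 1 := by
  fin_cases b
  · exact o_sm _ (h.o_rt (tg_cd σ 1) i)
  · exact o_sm _ (h.o_rt (tg_cd σ 0) i)

theorem Th_sm (σ : Bool) (j : J) :
    ContDiffAt ℝ ∞ (fun ξ => Th (M j) (a j) σ (c j) (ds (z j) ξ)) 0 :=
  P354YI.at_comp (Th_cd (h.ha j) (by rw [ds_zero]; exact h.rp_lt j)) (ds_cd _).contDiffAt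

/-- Bounds along words give bounds for the jets in the chart. -/
theorem o_Th (σ : Bool) {f : J → R4 → ℝ} {w : J → ℝ}
    (hf : ∀ j, W (vf (M j) (a j)) n (f j) (Th (M j) (a j) σ (c j) (z j)) (w j)) :
    Oj n 0 (fun j ξ => f j (Th (M j) (a j) σ (c j) (ds (z j) ξ))) w := by
  let k : Fin 3 → J → R4 → R4 →L[ℝ] ℝ := fun i j ξ =>
    ∑ b, kc σ (ps (M j) (a j) (ds (z j) ξ).2.1) (ds (z j) ξ).2.2 b i • cy b
  have ok : ∀ i, Oj n 0 (k i) 1 := fun i =>
    Oj.sum _ (fun _ => zero_le_one) fun b _ => (h.o_kc σ b i).smull (Oj.cst _)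
  refine oj_pull (V := fun j => vf (M j) (a j)) (c := ![fun _ _ => -.fst ℝ ℝ _,
    fun _ ξ => (1 + ξ.2.1)⁻¹ • cR, k 0, k 1, k 2]) (h.Th_sm σ) (fun j => ?_) n (fun i => ?_)
    fun j => by rw [ds_zero]; exact hf j
  · filter_upwards [h.ev j, h.ev0 j] with ξ h1 h2 v
    rw [show fderiv ℝ (fun ξ => Th (M j) (a j) σ (c j) (ds (z j) ξ)) ξ = _ from
      (((Th_cd (h.ha j) h1).differentiableAt (by simp)).hasFDerivAt.comp ξ (ds_fd _ ξ)).fderiv,
      ContinuousLinearMap.comp_apply, Th_fd (h.ha j) h1]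
    have e : (z j).2.1 * v.2.1 = (1 + ξ.2.1)⁻¹ * v.2.1 * (ds (z j) ξ).2.1 := by
      have : 1 + ξ.2.1 ≠ 0 := fun e => by simp [ds_r, e] at h2
      rw [ds_r]
      field_simp
    simp only [Fin.sum_univ_five, Fin.sum_univ_three, Matrix.cons_val, vf, rd_Th h2.le, smul_smul,
      k, sum_apply, smul_apply, cy_ap, smul_eq_mul, dL_ap, e, neg_apply, cR_ap,
      ContinuousLinearMap.coe_fst', add_assoc, mul_comm (yc _ _)]
    rfl
  · fin_cases i
    exacts [Oj.cst _, o_xi.smull (Oj.cst _), ok 0, ok 1, ok 2]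

end Adm

end Vale.Agent.P354SC
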