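import Vale.Agent.P354SC.Fr

/-!
The three parts of ABS.
-/

open scoped ContDiff
open Set Filter Topology

noncomputable section

namespace Vale.Agent.P354SC

open Vale.Agent.P354n (R4)
open Vale.Agent.P354R (Met)
open Vale.Agent.P354RC (Rm)
open Vale.Agent.P354XD (tb)
open Vale.Agent.P354XE (Tw)
open Vale.Agent.P354SA
open Vale.Agent.P354YQ (JD)

/-- The common form of the statements. -/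
def Pre (Q : ℕ → ℝ → Tw → Set R4 → Q6 → ℝ → ℝ → ℝ → ℝ → Prop) : Prop :=
  ∀ K0 E : ℝ, ∃ b ≥ 1, ∃ r0, ∃ ε0 > 0, ∀ (n : ℕ) (K : ℝ), ∃ B ≥ 1, ∀ g D β (q : Q6) l e w d,
    IsOpen D → Met g D → q.1 ∈ D → r0 ≤ q.1.2.1 → ‖q.1.2.2‖ ≤ E → ‖q.2‖ ≤ q.1.2.1 / b → 1 ≤ l →
    e ∈ Icc 0 ε0 → w ∈ Icc 0 1 → d ∈ Icc 0 3 → Hy 0 K0 e w d l g β q.1 →
    Hy (n + 2) K e w d l g β q.1 → Q n B g D q l e w d

/-- HAM: the Hamilton function. -/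
def HAM : Prop := Pre fun n B g D q l e w d => q ∈ Ug g D ∧
  Cs n l (Hm g) q (B * q.1.2.1 * (q.1.2.1⁻¹ + w)) ∧
  (Cs n l (fun x => cc g x - 1) q (B * (q.1.2.1⁻¹ + w)) ∧ cc g q ∈ Icc (1 / 2) 2) ∧
  ∀ ϖ ∈ Icc 0 q.1.2.1, ‖q.2‖ ≤ 2 * ϖ →
    |Hm g q - 1 / 2| ≤ B * e + B * (q.1.2.1⁻¹ + e * (d + q.1.2.1 * w) + (ϖ / q.1.2.1) ^ 2) ∧
    JD n (fun ξ : E5 => Hm g (q + ((0, q.1.2.1 * ξ.1, ξ.2.1), ϖ • ξ.2.2))) 0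
      (B * (q.1.2.1⁻¹ + e * (d + q.1.2.1 * w) + (ϖ / q.1.2.1) ^ 2))

/-- CURV: the curvature. -/
def CURV : Prop := Pre fun n B g _ q l _ w _ => ∀ i j k o,
  Cs n l (fun x => Rm (tb g) x.1 (fq g x i) (fq g x j) (fq g x k) (fq g x o)) q
    (B * (q.1.2.1⁻¹ + w))

/-- GPZ: the metric of the spheres. -/
def GPZ : Prop := Pre fun n B g _ q l _ w _ =>
  (∀ a b, Cs n l (Gp g a b) q (B * q.1.2.1 ^ 2) ∧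
    Cs n l (fun x => fderiv ℝ (Gp g a b) x (e0, 0)) q (B * q.1.2.1 ^ 2 * (q.1.2.1⁻¹ + w))) ∧
  (B⁻¹ * q.1.2.1 ^ 4 ≤ Gp g 0 0 q * Gp g 1 1 q - Gp g 0 1 q ^ 2 ∧ 0 < Gp g 0 0 q) ∧
  (∀ a, Cs n l (zt g a) q B) ∧ Cs n l (fun x => g x.1 e1 e1) q (B / q.1.2.1)

end Vale.Agent.P354SC
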