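import Vale.Agent.P354SC.Gpz

/-!
The assembly of FARC.
-/

open scoped ContDiff
open Set Filter Topology

noncomputable section

namespace Vale.Agent.P354SC

open Vale.Agent.P354n (R4)
open Vale.Agent.P354XE
open Vale.Agent.P354SA hiding Cl om
open Vale.Agent.P354YQ (JB JD)

theorem C3.mono {n : ℕ} {l c c' : ℝ} {f : R4 → ℝ} {z : R4} (h : C3 n l f z c) (k : c ≤ c') :
    C3 n l f z c' := ⟨h.1, h.2.mono le_rfl k⟩

theorem Hy.mono {n : ℕ} {K K' e w d l : ℝ} {g : Tw} {β : Fin 2 → R4 → ℝ} {z : R4}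
    (h : Hy n K e w d l g β z) (k : K ≤ K') (he : 0 ≤ e) (hw : 0 ≤ w) (hd : 0 ≤ d)
    (hr : 0 < z.2.1) : Hy n K' e w d l g β z :=
  ⟨fun a => (h.be a).mono (by gcongr), h.A.mono (by gcongr), h.x.mono (by gcongr),
    fun a => (h.ze a).mono k, h.ph.mono (by gcongr), h.ph1.mono (by gcongr),
    fun a => (h.ph2 a).mono (by gcongr), fun a => (h.ta a).mono (by gcongr),
    fun a => (h.ta0 a).mono (by gcongr), fun a b => (h.ga a b).mono (by gcongr),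
    fun a b => (h.ga0 a b).mono (by gcongr), fun a b => (h.ga1 a b).trans (by gcongr)⟩

theorem fp_mono {n : ℕ} {B B' m m' l : ℝ} {g : Tw} {q : Q6} (h : Fp n B m l g q) (b0 : 0 < B)
    (k : B ≤ B') (k' : B * m ≤ B' * m') (hr : 0 < q.1.2.1) : Fp n B' m' l g q :=
  have e : ∀ x, 0 ≤ x → B * x * m ≤ B' * x * m' := fun x hx => by
    rw [mul_right_comm, mul_right_comm B']
    exact mul_le_mul_of_nonneg_right k' hx
  ⟨cs_mono h.hm (e _ hr.le), ⟨cs_mono h.c.1 k', h.c.2⟩, fun a b => ⟨cs_mono (h.G a b).1 (by gcongr),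
    cs_mono (h.G a b).2 (e _ (sq_nonneg _))⟩, ⟨le_trans (by gcongr) h.pos.1, h.pos.2⟩,
    fun a => cs_mono (h.z a) k, cs_mono h.A (by gcongr), fun i j k o => cs_mono (h.cur i j k o) k'⟩

theorem near_mono {q : Par} {M a ε ε' : ℝ} (h : q.Near M a ε) (k : ε ≤ ε') : q.Near M a ε' :=
  ⟨h.1.trans_le k, h.2.1.trans_le k, h.2.2.1.trans_le k, h.2.2.2.1,
    fun i j => (h.2.2.2.2 i j).trans_le k⟩

theorem jb_one (x : ℝ) : 1 ≤ jb x := Real.one_le_sqrt.2 (by linarith [sq_nonneg x])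

theorem om_mem (T : ℝ) {σ : ℝ} (h : 0 ≤ σ) (z : R4) : 0 ≤ P354SA.om T σ z ∧ P354SA.om T σ z ≤ 1 :=
  ⟨Real.rpow_nonneg (by linarith [jb_one (T - z.1)]) _,
    Real.rpow_le_one_of_one_le_of_nonpos (jb_one _) (by linarith)⟩

theorem om_le {T L σ : ℝ} {n : ℕ} {z : R4} (hT : 0 < T) (h1 : 0 ≤ σ) (h2 : σ ≤ 2) (hL : 1 ≤ L)
    (h : L ^ (n + 4) ≤ T ^ (σ - 1)) (hz : 3 / 2 * T ≤ z.1) :
    L ^ (n + 2) * P354SA.om T σ z ≤ 4 / T := by
  have k1 : T / 2 ≤ jb (T - z.1) := Real.le_sqrt_of_sq_le (by nlinarith)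
  have k2 : P354SA.om T σ z ≤ 4 * T ^ (-σ) := by
    refine (Real.rpow_le_rpow_of_nonpos (by positivity) k1 (by linarith)).trans ?_
    rw [Real.div_rpow hT.le zero_le_two, Real.rpow_neg zero_le_two, div_inv_eq_mul, mul_comm]
    refine mul_le_mul_of_nonneg_right ((Real.rpow_le_rpow_of_exponent_le one_le_two h2).trans_eq ?_)
      (by positivity)
    norm_num
  refine (mul_le_mul ((pow_le_pow_right₀ hL (by omega)).trans h) k2 (om_mem T h1 z).1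
    (by positivity)).trans_eq ?_
  rw [mul_left_comm, ← Real.rpow_add hT, show σ - 1 + -σ = -1 by ring, Real.rpow_neg_one,
    div_eq_mul_inv]

theorem farc_of (h1 : CHF) (h2 : HYF) (h3 : HYN) (h4 : HFZ) (h5 : ABS) : FARC := by
  intro M a s δ E ha hs hδ
  have M0 : 0 < M := (abs_nonneg a).trans_lt ha
  obtain ⟨εc, c0, rc, -, h1⟩ := h1 M a ha
  obtain ⟨εz, z0, rz, h4⟩ := h4 M a ha
  obtain ⟨F0, f0⟩ := h2 (M + 1) E 0
  obtain ⟨N0, n0⟩ := h3 M a E ha 0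
  obtain ⟨b, b1, ra, εa, a0, h5⟩ := h5 (max F0 N0) E
  refine ⟨b, b1, 2 * max (max rc rz) (max ra (4 * (M + 1) + 1)), fun n => ?_⟩
  obtain ⟨F1, f1⟩ := h2 (M + 1) E (n + 2)
  obtain ⟨N1, n1⟩ := h3 M a E ha (n + 2)
  obtain ⟨B1, B0, h5⟩ := h5 n (max F1 N1)
  obtain ⟨Bz, h4⟩ := h4 n
  refine ⟨max (9 * B1) Bz, le_max_of_le_left (by linarith), fun ρ => ?_⟩
  obtain ⟨ε1, e1, n0⟩ := n0 (ρ + 1)
  obtain ⟨ε2, e2, n1⟩ := n1 (ρ + 1)
  refine ⟨max 4 (2 * (ρ + 1)), fun e e0 => ⟨min (min (min εc εz) (min 1 ((M - |a|) / 2)))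
    (min (min ε1 ε2) (min e εa)), by have := sub_pos.2 ha; positivity, ?_⟩⟩
  rintro P g D Y q q' β σ T L r2 rfl rfl rfl rfl rfl p1 p2 p3 p4 ed hr hT hL hL'
  simp only [le_min_iff, max_le_iff] at p4 hT
  obtain ⟨⟨⟨s1, s2⟩, s3, s4⟩, ⟨s5, s6⟩, s7, s8⟩ := p4
  have nr := ed.isEnd.par.2
  obtain ⟨c1, -, c2⟩ := h1 q' σ T (near_mono nr s1)
  have pl := c1 g D ed.met.1 ed.met.2.1
  have mt := P354RC.k2.1 _ _ _ _ _ pl
  have rr : ∀ r, r2 / 2 ≤ r → (rc ≤ r ∧ rz ≤ r) ∧ ra ≤ r ∧ 4 * (P.M + 1) + 1 ≤ r := fun r h => by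
    simp only [← max_le_iff]
    linarith
  have u1 : 9 * B1 ≤ max (9 * B1) Bz := le_max_left _ _
  have u2 : Bz ≤ max (9 * B1) Bz := le_max_right _ _
  generalize max (9 * B1) Bz = B at u1 u2 ⊢
  refine ⟨⟨pl.open', mt, P354RC.k2.2.1 _ _ _ _ _ pl ed.met.2.2⟩, nr.2.2.1.le.trans s7,
    fun r h => ?_, fun x h hE hf hp => ?_⟩
  · obtain ⟨k1, k2, k3⟩ := h4 q' _ e r nr s2 s7 (rr r h).1.2
    have : 0 < r := by linarith [(rr r h).2.2]
    exact ⟨k1.mono (by gcongr), k2.trans (by gcongr), k3.trans (by gcongr)⟩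
  obtain ⟨⟨r1, -⟩, r3, r4⟩ := rr _ h
  have r5 : 1 ≤ x.1.2.1 := by linarith
  have r0 : 0 < x.1.2.1 := by linarith
  have r6 : 3 * P.M < x.1.2.1 := by linarith
  obtain ⟨d1, -, d2, d3, d4, -⟩ := c2 x.1 r6
  have en : Tq q' σ T x.1 ∈ En P.M P.a P.r1 P.θ := ⟨by rw [d1]; linarith, p2.trans
    (Real.one_le_exp (mul_nonneg (P354XA.hor ha).2.2.2.2.1.le (d4 r1 hf))),
    hf.eq_or_lt.elim (fun k => (d3.2 k.symm).ge) fun k => (d2.2 k).le⟩
  have hD := ed.sub en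
  have q1 : |q'.a| < q'.M := by
    linarith [(abs_lt.1 nr.1).1, abs_sub_abs_le_abs_sub q'.a P.a, nr.2.1]
  have q2 : q'.M ≤ P.M + 1 := by linarith [(abs_lt.1 nr.1).2]
  have σ0 : 0 ≤ min P.s 2 := le_min (by linarith) zero_le_two
  have δ0 : 0 ≤ min P.δ 1 := le_min hδ.le zero_le_one
  obtain ⟨o0, o1⟩ := om_mem T σ0 x.1
  obtain ⟨o2, o3⟩ := om_mem T δ0 x.1
  have o4 := Real.rpow_nonneg r0.le (-min P.δ 1)
  have o5 := Real.rpow_le_one_of_one_le_of_nonpos r5 (neg_nonpos.2 δ0)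
  have m0 : 0 ≤ min e εa := le_min e0.le a0.le
  have uw1 : uw q'.M q'.a (Th q'.M q'.a σ T x.1) = jb (T - x.1.1) := by rw [uw, ur_Th r0.le, jb]
  have key := fun l w (hl : 1 ≤ l) (w1 : l ^ (n + 2) * P354SA.om T (min P.s 2) x.1 ≤ w)
      (w2 : w ≤ 1) (w0 : 0 ≤ w) (β' : Fin 2 → R4 → ℝ) => h5 _ _ β' x l (min e εa) w
    (P354SA.om T (min P.δ 1) x.1 + x.1.2.1 ^ (-min P.δ 1) + w) pl.open' mt ⟨r6, hD⟩ r3 hE hp hl
    ⟨m0, min_le_right _ _⟩ ⟨w0, w2⟩ ⟨by positivity, by linarith⟩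
  have far := fun l w (hl : 1 ≤ l) (w1 : l ^ (n + 2) * P354SA.om T (min P.s 2) x.1 ≤ w)
      (w2 : w ≤ 1) (k : P.R + 1 ≤ x.1.2.1) => by
    have fa := (ed.isEnd.far (Th q'.M q'.a σ T x.1) en (by rwa [rd_Th r0.le])).2
    have v1 : uw q'.M q'.a (Th q'.M q'.a σ T x.1) ^ (-P.s) ≤ P354SA.om T (min P.s 2) x.1 :=
      uw1 ▸ Real.rpow_le_rpow_of_exponent_le (jb_one _) (neg_le_neg (min_le_left _ _))
    have v2 : wt q'.M q'.a P.δ (Th q'.M q'.a σ T x.1) + w ≤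
        P354SA.om T (min P.δ 1) x.1 + x.1.2.1 ^ (-min P.δ 1) + w := by
      rw [wt, uw1, rd_Th r0.le]
      exact add_le_add (add_le_add (Real.rpow_le_rpow_of_exponent_le (jb_one _)
        (neg_le_neg (min_le_left _ _))) (Real.rpow_le_rpow_of_exponent_le r5
          (neg_le_neg (min_le_left _ _)))) le_rfl
    have v3 := (le_mul_of_one_le_left o0 (one_le_pow₀ hl)).trans w1
    have w0 := o0.trans v3
    exact key l w hl w1 w2 w0 _
      ((f0 q' _ _ _ _ g D β σ T x.1 l _ w _ q1 q2 r4 hE s3 (le_min s7 s8) (by omega) ed.met.1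
        ed.met.2.1 hD fa hl (by rw [pow_zero, one_mul]; exact v1.trans v3) w2 v2).mono
        (le_max_left _ _) m0 w0 (by positivity) r0)
      ((f1 q' _ _ _ _ g D β σ T x.1 l _ w _ q1 q2 r4 hE s3 (le_min s7 s8) p3 ed.met.1
        ed.met.2.1 hD fa hl ((mul_le_mul_of_nonneg_left v1 (by positivity)).trans w1) w2 v2).mono
        (le_max_left _ _) m0 w0 (by positivity) r0)
  have w1 : 1 ^ (n + 2) * P354SA.om T (min P.s 2) x.1 ≤ P354SA.om T (min P.s 2) x.1 := by simp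
  obtain ⟨k1, k2, k3⟩ := (le_total (P.R + 1) x.1.2.1).elim (far 1 _ le_rfl w1 o1) fun k =>
    have nb := (ed.isEnd.near _ en (by rw [d1]; linarith)).2.1
    key 1 _ le_rfl w1 o1 o0 0
      ((n0 q' _ _ g D σ T x.1 _ _ _ nr s5 (by omega) r4 k hE ed.met.1 ed.met.2.1 hD nb m0 o0
        (by positivity)).mono (le_max_right _ _) m0 o0 (by positivity) r0)
      ((n1 q' _ _ g D σ T x.1 _ _ _ nr s6 p3 r4 k hE ed.met.1 ed.met.2.1 hD nb m0 o0
        (by positivity)).mono (le_max_right _ _) m0 o0 (by positivity) r0)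
  have i0 := inv_pos.2 r0
  have B2 : B1 ≤ B := by linarith
  refine ⟨k1, fun ϖ h1 h2 => ?_, fp_mono k2 (by linarith) B2 (by unfold mz; gcongr) r0,
    fun t1 t2 => ?_⟩
  · have v : B1 * (x.1.2.1⁻¹ + min e εa * (P354SA.om T (min P.δ 1) x.1 + x.1.2.1 ^ (-min P.δ 1) +
        P354SA.om T (min P.s 2) x.1 + x.1.2.1 * P354SA.om T (min P.s 2) x.1) +
        (ϖ / x.1.2.1) ^ 2) ≤ nu B e (min P.s 2) (min P.δ 1) T ϖ x.1 := by
      have y1 := le_mul_of_one_le_left o0 r5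
      have y2 := mul_le_mul (min_le_left e εa) (show P354SA.om T (min P.δ 1) x.1 +
        x.1.2.1 ^ (-min P.δ 1) + P354SA.om T (min P.s 2) x.1 + x.1.2.1 * P354SA.om T (min P.s 2) x.1 ≤
        9 * (P354SA.om T (min P.δ 1) x.1 + x.1.2.1 ^ (-min P.δ 1) +
          x.1.2.1 * P354SA.om T (min P.s 2) x.1) by linarith) (by positivity) e0.le
      refine le_trans ?_ (mul_le_mul_of_nonneg_right u1 (by positivity))
      rw [mul_comm 9, mul_assoc]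
      exact mul_le_mul_of_nonneg_left (by linarith [sq_nonneg (ϖ / x.1.2.1)]) (by linarith)
    exact ⟨(k3 ϖ h1 h2).1.trans (add_le_add (mul_le_mul B2 (min_le_left _ _) m0 (by linarith)) v),
      (k3 ϖ h1 h2).2.mono v⟩
  · have T0 : 0 < T := by linarith [hT.1]
    have y1 := om_le T0 σ0 (min_le_right _ _) hL hL' t1
    have y2 : 4 / T ≤ 8 * x.1.2.1⁻¹ := by
      rw [← div_eq_mul_inv, div_le_div_iff₀ T0 r0]
      linarith [t2.2]
    refine fp_mono (far L _ hL y1 ((div_le_one T0).2 hT.1) (by linarith [t2.1, hT.2])).2.1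
      (by linarith) B2 (le_trans ?_ (mul_le_mul_of_nonneg_right u1 (by unfold mz; positivity))) r0
    rw [mul_comm 9, mul_assoc, mz]
    exact mul_le_mul_of_nonneg_left (by linarith) (by linarith)

end Vale.Agent.P354SC
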