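import Vale.Agent.P354SC.Ch
import Vale.Agent.P354SA.Far

/-!
The split of FARC: bounds for the components of the metric in the far chart.
-/

open scoped ContDiff
open Set Filter Topology

noncomputable section

namespace Vale.Agent.P354SC

open Vale.Agent.P354n (R4)
open Vale.Agent.P354R (Met)
open Vale.Agent.P354XE (Tw pb gin Par Far Bd uw wt)
open Vale.Agent.P354SA
open Vale.Agent.P354YI (Jb)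
open Vale.Agent.P354YQ (JD)

/-- Jets in which derivatives in s gain l and derivatives in r gain r. -/
def d3 (l : ℝ) (z ξ : R4) : R4 := z + (l * ξ.1, z.2.1 * ξ.2.1, ξ.2.2)
def C3 (n : ℕ) (l : ℝ) (f : R4 → ℝ) (z : R4) (c : ℝ) : Prop :=
  ContDiffAt ℝ ∞ f z ∧ Jb n (fun ξ => f (d3 l z ξ)) 0 c

/-- The field N, the function g (N, N) + 1, and the round metric. -/
def Nv (β : Fin 2 → R4 → ℝ) (x : R4) : R4 := (-1, 0, β 0 x, β 1 x)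
def φN (g : Tw) (β : Fin 2 → R4 → ℝ) (x : R4) : ℝ := g x (Nv β x) (Nv β x) + 1
def g0 (a b : Fin 2) (y : ℝ × ℝ) : ℝ := if a = b then 4 / qq y ^ 2 else 0

/-- The bounds at z; r is z.2.1. -/
structure Hy (n : ℕ) (K e w d l : ℝ) (g : Tw) (β : Fin 2 → R4 → ℝ) (z : R4) : Prop where
  be : ∀ a, C3 n l (β a) z (K * (e * w))
  A : C3 n l (fun x => g x e1 e1) z (K * z.2.1⁻¹ ^ 3)
  x : C3 n l (fun x => g x e1 (Nv β x) + 1) z (K * (z.2.1⁻¹ + e * w))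
  ze : ∀ a, C3 n l (fun x => g x e1 (ey a)) z K
  ph : C3 n l (φN g β) z (K * (z.2.1⁻¹ + e * (1 + z.2.1 * w)))
  ph1 : C3 n l (fun x => x.2.1 * dv e1 (φN g β) x) z (K * (z.2.1⁻¹ + e * (d + z.2.1 * w)))
  ph2 : ∀ a, C3 n l (dv (ey a) (φN g β)) z (K * (z.2.1⁻¹ + e * (d + z.2.1 * w)))
  ta : ∀ a, C3 n l (fun x => g x (Nv β x) (ey a)) z (K * (1 + e * d * z.2.1))
  ta0 : ∀ a, C3 n l (dv e0 fun x => g x (Nv β x) (ey a)) z (K * (1 + z.2.1 * w))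
  ga : ∀ a b, C3 n l (gm g a b) z (K * z.2.1 ^ 2)
  ga0 : ∀ a b, C3 n l (dv e0 (gm g a b)) z (K * (z.2.1 ^ 2 * (z.2.1⁻¹ + w)))
  ga1 : ∀ a b, |gm g a b z - z.2.1 ^ 2 * g0 a b z.2.2| ≤ K * (z.2.1 ^ 2 * (z.2.1⁻¹ + e))

/-- The shift in the chart. -/
def bz (q : Par) (σ : Bool) (T : ℝ) (β : Fin 3 → R4 → ℝ) (b : Fin 2) (x : R4) : ℝ :=
  ∑ i, β i (Th q.M q.a σ T x) * kc σ (ps q.M q.a x.2.1) x.2.2 b i * (qq x.2.2 ^ 2 / 4)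

/-- HYF: the bounds from Far. -/
def HYF : Prop :=
  ∀ (μ E : ℝ) (n : ℕ), ∃ K, ∀ (q : Par) s δ ε N g D β σ T (z : R4) l e w d, |q.a| < q.M →
    q.M ≤ μ → 4 * μ + 1 ≤ z.2.1 → ‖z.2.2‖ ≤ E → ε ≤ 1 → ε ≤ e → n + 2 ≤ N → IsOpen D → Met g D →
    Tq q σ T z ∈ D → Far q.M q.a s δ ε N (pb q.lin g) β (Th q.M q.a σ T z) → 1 ≤ l →
    l ^ n * uw q.M q.a (Th q.M q.a σ T z) ^ (-s) ≤ w → w ≤ 1 →
    wt q.M q.a δ (Th q.M q.a σ T z) + w ≤ d → Hy n K e w d l (pb (Tq q σ T) g) (bz q σ T β) z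

/-- HYN: the bounds for bounded r. -/
def HYN : Prop :=
  ∀ M a E : ℝ, |a| < M → ∀ n : ℕ, ∃ K, ∀ ρ : ℝ, ∃ ε0 > 0, ∀ (q : Par) ε N g D σ T (z : R4) e w d,
    q.Near M a ε → ε ≤ ε0 → n + 2 ≤ N → 4 * (M + 1) + 1 ≤ z.2.1 → z.2.1 ≤ ρ → ‖z.2.2‖ ≤ E →
    IsOpen D → Met g D → Tq q σ T z ∈ D → Bd N (g - gin M a) (Tq q σ T z) ε → 0 ≤ e → 0 ≤ w →
    0 ≤ d → Hy n K e w d 1 (pb (Tq q σ T) g) 0 z

/-- HFZ: the function which describes the initial slice. -/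
def HFZ : Prop :=
  ∀ M a : ℝ, |a| < M → ∃ ε0 > 0, ∃ r0, ∀ n : ℕ, ∃ B, ∀ (q : Par) ε e r, q.Near M a ε → ε ≤ ε0 →
    ε ≤ e → r0 ≤ r → JD n (fun ξ => fz M a q (r + r * ξ)) 0 (B * r) ∧
      |deriv (fz M a q) r - 1| ≤ B * (e + r⁻¹) ∧ |fz M a q r - r| ≤ B * (e * r + √r)

/-- ABS: the far structure from the bounds. -/
def ABS : Prop :=
  ∀ K0 E : ℝ, ∃ b ≥ 1, ∃ r0, ∃ ε0 > 0, ∀ (n : ℕ) (K : ℝ), ∃ B ≥ 1, ∀ g D β (q : Q6) l e w d,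
    IsOpen D → Met g D → q.1 ∈ D → r0 ≤ q.1.2.1 → ‖q.1.2.2‖ ≤ E → ‖q.2‖ ≤ q.1.2.1 / b → 1 ≤ l →
    e ∈ Icc 0 ε0 → w ∈ Icc 0 1 → d ∈ Icc 0 3 → Hy 0 K0 e w d l g β q.1 →
    Hy (n + 2) K e w d l g β q.1 → q ∈ Ug g D ∧ Fp n B (q.1.2.1⁻¹ + w) l g q ∧
      ∀ ϖ ∈ Icc 0 q.1.2.1, ‖q.2‖ ≤ 2 * ϖ →
        |Hm g q - 1 / 2| ≤ B * e + B * (q.1.2.1⁻¹ + e * (d + q.1.2.1 * w) + (ϖ / q.1.2.1) ^ 2) ∧
        JD n (fun ξ : E5 => Hm g (q + ((0, q.1.2.1 * ξ.1, ξ.2.1), ϖ • ξ.2.2))) 0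
          (B * (q.1.2.1⁻¹ + e * (d + q.1.2.1 * w) + (ϖ / q.1.2.1) ^ 2))

end Vale.Agent.P354SC
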