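import Vale.Agent.P354RC.Pull

/-!
The connection and the curvature on vector fields.
-/

set_option maxSynthPendingDepth 3

open scoped ContDiff
open Set Filter Topology

noncomputable section

namespace Vale.Agent.P354SC

open Vale.Agent.P354n (R4)
open Vale.Agent.P354RC

def Kz (h : R4 → B2) (X Y W : R4 → R4) (x : R4) : ℝ :=
  C1 h x (X x) (Y x) (W x) + h x (fderiv ℝ Y x (X x)) (W x)
def nab (h : R4 → B2) (X Y : R4 → R4) (x : R4) : R4 := Gm h x (X x) (Y x) + fderiv ℝ Y x (X x)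
def brk (X Y : R4 → R4) (x : R4) : R4 := fderiv ℝ Y x (X x) - fderiv ℝ X x (Y x)

variable {g : R4 → R4 → R4 → ℝ} {h : R4 → B2} {D : Set R4} {y : R4} {X Y Z W : R4 → R4}

theorem h_nab (r : Rp g h D) (hy : y ∈ D) : h y (nab h X Y y) (W y) = Kz h X Y W y := by
  rw [nab, Kz, map_add, add_apply, r.gm hy]

theorem fd_h (r : Rp g h D) (hy : y ∈ D) (hX : DifferentiableAt ℝ X y)
    (hY : DifferentiableAt ℝ Y y) (v : R4) : fderiv ℝ (fun x => h x (X x) (Y x)) y v =
      fderiv ℝ h y v (X y) (Y y) + h y (fderiv ℝ X y v) (Y y) + h y (X y) (fderiv ℝ Y y v) := by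
  rw [(((at_df (r.at hy)).hasFDerivAt.clm_apply hX.hasFDerivAt).clm_apply hY.hasFDerivAt).fderiv]
  simp
  ring

/-- The formula of Koszul. -/
theorem kos (r : Rp g h D) (hy : y ∈ D) (hX : DifferentiableAt ℝ X y)
    (hY : DifferentiableAt ℝ Y y) (hW : DifferentiableAt ℝ W y) : Kz h X Y W y =
      (fderiv ℝ (fun x => h x (Y x) (W x)) y (X y) + fderiv ℝ (fun x => h x (X x) (W x)) y (Y y) -
        fderiv ℝ (fun x => h x (X x) (Y x)) y (W y) + h y (brk X Y y) (W y) -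
        h y (brk X W y) (Y y) - h y (brk Y W y) (X y)) / 2 := by
  simp only [fd_h r hy, hX, hY, hW, Kz, C1_ap, brk, map_sub, sub_apply,
    r.symm y hy (X y), r.symm y hy (Y y)]
  ring

theorem fd_Kz (r : Rp g h D) (hy : y ∈ D) (hY : DifferentiableAt ℝ Y y)
    (hZ : ContDiffAt ℝ 2 Z y) (hW : DifferentiableAt ℝ W y) (v : R4) :
    fderiv ℝ (Kz h Y Z W) y v = dC h y v (Y y) (Z y) (W y) + C1 h y (fderiv ℝ Y y v) (Z y) (W y) +
      C1 h y (Y y) (fderiv ℝ Z y v) (W y) + C1 h y (Y y) (Z y) (fderiv ℝ W y v) +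
      (fderiv ℝ h y v (fderiv ℝ Z y (Y y)) (W y) +
        h y (fderiv ℝ (fderiv ℝ Z) y v (Y y) + fderiv ℝ Z y (fderiv ℝ Y y v)) (W y) +
        h y (fderiv ℝ Z y (Y y)) (fderiv ℝ W y v)) := by
  have h0 := (at_df (r.at hy)).hasFDerivAt
  have h1 := (at_df (at_fd (r.at hy))).hasFDerivAt
  have y1 := hY.hasFDerivAt
  have w1 := hW.hasFDerivAt
  have z1 := (hZ.differentiableAt (by simp)).hasFDerivAt
  have z2 := ((hZ.fderiv_right (m := 1) le_rfl).differentiableAt (by simp)).hasFDerivAt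
  have e : Kz h Y Z W = fun x => (fderiv ℝ h x (Y x) (Z x) (W x) + fderiv ℝ h x (Z x) (Y x) (W x) -
      fderiv ℝ h x (W x) (Y x) (Z x)) * 2⁻¹ + h x (fderiv ℝ Z x (Y x)) (W x) :=
    funext fun x => by rw [Kz, C1_ap, div_eq_mul_inv]
  have := (((((((h1.clm_apply y1).clm_apply z1).clm_apply w1).add
    (((h1.clm_apply z1).clm_apply y1).clm_apply w1)).sub
    (((h1.clm_apply w1).clm_apply y1).clm_apply z1)).mul_const 2⁻¹).add
    ((h0.clm_apply (z2.clm_apply y1)).clm_apply w1)).fderiv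
  rw [e]
  refine (DFunLike.congr_fun this v).trans ?_
  simp only [C1_ap, dC, add_apply, sub_apply, smul_apply, ContinuousLinearMap.comp_apply,
    ContinuousLinearMap.flip_apply, smul_eq_mul, map_add]
  ring

/-- The curvature on vector fields. -/
theorem rm_fr (r : Rp g h D) (hy : y ∈ D) (hX : DifferentiableAt ℝ X y)
    (hY : DifferentiableAt ℝ Y y) (hZ : ContDiffAt ℝ 2 Z y) (hW : DifferentiableAt ℝ W y) :
    Rm h y (X y) (Y y) (Z y) (W y) = fderiv ℝ (Kz h Y Z W) y (X y) - fderiv ℝ (Kz h X Z W) y (Y y) -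
      h y (nab h Y Z y) (nab h X W y) + h y (nab h X Z y) (nab h Y W y) -
      Kz h (brk X Y) Z W y := by
  have s := r.symm y hy
  have k : ∀ a b u, h y u (Gm h y a b) = C1 h y a b u := fun a b u => by rw [s, r.gm hy]
  have d := r.dsym hy
  rw [fd_Kz r hy hY hZ hW, fd_Kz r hy hX hZ hW, (hZ.isSymmSndFDerivAt (by simp)).eq (X y)]
  simp only [Rm, Kz, nab, brk, map_add, map_sub, add_apply, sub_apply, k _ _ (fderiv ℝ _ _ _),
    r.gm hy _ _ (fderiv ℝ _ _ _), C1_ap, d _ (W y), d _ (fderiv ℝ Z y _) (X y),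
    d _ (fderiv ℝ Z y _) (Y y), d _ (fderiv ℝ Y y _) (Z y), d _ (fderiv ℝ X y _) (Z y)]
  ring

end Vale.Agent.P354SC
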