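import Vale.Agent.P354SC.Defs
import Vale.Agent.P354SC.Rf

/-!
The frame, the inverse metric in the frame, and the Hamilton function.
-/

set_option maxSynthPendingDepth 3

open scoped ContDiff
open Set Filter Topology

noncomputable section

namespace Vale.Agent.P354SC

open Vale.Agent.P354n (R4)
open Vale.Agent.P354RC
open Vale.Agent.P354XD (tb)
open Vale.Agent.P354XE (Tw)
open Vale.Agent.P354SA hiding Cl
open Vale.Agent.P354YI (el)

section defs
variable (g : Tw) (β : Fin 2 → R4 → ℝ)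

def kN (x : R4) : ℝ := -g x (Nv β x) (Nv β x) / (2 * g x e1 (Nv β x))
def Fr : Fin 4 → R4 → R4 := ![fun _ => e1, fun x => Nv β x + kN g β x • e1,
  fun x => x.2.1⁻¹ • ey 0, fun x => x.2.1⁻¹ • ey 1]
def co (x : R4) : Fin 4 → R4 →L[ℝ] ℝ := ![cv 1 + kN g β x • cv 0, -cv 0,
  x.2.1 • (cv 2 + β 0 x • cv 0), x.2.1 • (cv 3 + β 1 x • cv 0)]
def GG (a b : Fin 4) (x : R4) : ℝ := tb g x (Fr g β a x) (Fr g β b x)
def Gh (x : R4) : B2 := ∑ a, ∑ b, el ℝ a b (GG g β a b x)
def Gi (a b : Fin 4) (x : R4) : ℝ := cv b ((Gh g β x).inverse (cv a))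

/-- The covector p divided by r, and the parts of the Hamilton function. -/
def p0 (q : Q6) : ℝ := q.2.1 * q.1.2.1⁻¹
def p1 (q : Q6) : ℝ := q.2.2 * q.1.2.1⁻¹
def tN (q : Q6) : ℝ := kN g β q.1 - (q.2.1 * β 0 q.1 + q.2.2 * β 1 q.1)
def qp (q : Q6) : ℝ := -Gi g β 1 0 q.1 + (p0 q * Gi g β 1 2 q.1 + p1 q * Gi g β 1 3 q.1)
def Ip (q : Q6) : ℝ := Gi g β 0 0 q.1 - 2 * (p0 q * Gi g β 0 2 q.1 + p1 q * Gi g β 0 3 q.1) +
  (p0 q * p0 q * Gi g β 2 2 q.1 + 2 * (p0 q * p1 q * Gi g β 2 3 q.1) + p1 q * p1 q * Gi g β 3 3 q.1)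
def qe (q : Q6) : ℝ := qp g β q * qp g β q - Gi g β 1 1 q.1 * Ip g β q
def Hp (q : Q6) : ℝ := Ip g β q * (qp g β q + √(qe g β q))⁻¹
/-- The coefficients of the frame fq. -/
def cq (q : Q6) : Fin 4 → Fin 4 → ℝ := ![![1, 0, 0, 0], fun b => (√(qe g β q))⁻¹ *
  (Gi g β 0 b q.1 + Hp g β q * Gi g β 1 b q.1 - p0 q * Gi g β 2 b q.1 - p1 q * Gi g β 3 b q.1),
  ![p0 q, 0, 1, 0], ![p1 q, 0, 0, 1]]

end defs

variable {g : Tw} {β : Fin 2 → R4 → ℝ} {D : Set R4} {x : R4}

theorem sum_co (hr : x.2.1 ≠ 0) (v : R4) : ∑ k, co g β x k v • Fr g β k x = v := by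
  simp [Fin.sum_univ_four, co, Fr, cv, Nv, e1, ey, Prod.ext_iff]
  field_simp
  simp

theorem co_Fr (hr : x.2.1 ≠ 0) (a b : Fin 4) :
    co g β x b (Fr g β a x) = if a = b then 1 else 0 := by
  fin_cases a <;> fin_cases b <;> simp [co, Fr, cv, Nv, e1, ey, hr]

theorem co_sum (hr : x.2.1 ≠ 0) (c : Fin 4 → ℝ) (b : Fin 4) :
    co g β x b (∑ a, c a • Fr g β a x) = c b := by
  simp [co_Fr hr]

theorem Gh_ap (v w : R4) :
    Gh g β x v w = tb g x (∑ a, cv a v • Fr g β a x) (∑ b, cv b w • Fr g β b x) := by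
  simp only [Gh, GG, el, sum_apply, map_sum, map_smul, smul_apply, smul_eq_mul,
    ContinuousLinearMap.comp_apply, ContinuousLinearMap.smulRightL_apply_apply,
    ContinuousLinearMap.smulRight_apply, Finset.mul_sum]
  rw [Finset.sum_comm]
  exact Finset.sum_congr rfl fun _ _ => Finset.sum_congr rfl fun _ _ => by ring

theorem sum_cv (a : Fin 4) (F : Fin 4 → R4) : ∑ k, cv k (bs a) • F k = F a := by simp [cv_bs]

theorem cv_sum (c : Fin 4 → ℝ) (b : Fin 4) : cv b (∑ a, c a • bs a) = c b := by simp [cv_bs]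

section pt
variable (r : Rp g (tb g) D) (hx : x ∈ D) (hr : x.2.1 ≠ 0)
include r hx

theorem GG_symm (a b : Fin 4) : GG g β a b x = GG g β b a x := r.symm x hx _ _

include hr

theorem Gh_inv : (Gh g β x).IsInvertible := inv_of_inj fun v hv => by
  have : ∑ a, cv a v • Fr g β a x = 0 := r.nd x hx _ fun w => by
    have := hv (∑ k, co g β x k w • bs k)
    simpa only [Gh_ap, cv_sum, sum_co hr] using this
  rw [← sum_bs v]
  refine Finset.sum_eq_zero fun b _ => ?_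
  rw [← co_sum (g := g) (β := β) hr (fun a => cv a v) b, this, map_zero, zero_smul]

theorem inv_co (a : Fin 4) : (tb g x).inverse (co g β x a) = ∑ b, Gi g β a b x • Fr g β b x :=
  r.ext hx fun w => by
    have := DFunLike.congr_fun ((Gh_inv (β := β) r hx hr).self_apply_inverse (cv a))
      (∑ k, co g β x k w • bs k)
    rw [r.inv hx]
    simpa only [Gh_ap, cv_sum, sum_co hr, Gi] using this.symm

theorem ig_co (a b : Fin 4) : ig g x (co g β x a) (co g β x b) = Gi g β a b x := by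
  rw [ig, inv_co r hx hr, co_sum hr]

theorem Gi_symm (a b : Fin 4) : Gi g β a b x = Gi g β b a x := by
  have k : ∀ a b, Gi g β a b x =
      tb g x ((tb g x).inverse (co g β x b)) ((tb g x).inverse (co g β x a)) := fun a b => by
    rw [r.inv hx, ← ig_co r hx hr, ig]
  rw [k, k, r.symm x hx]

theorem row (a b : Fin 4) : ∑ k, GG g β a k x * Gi g β k b x = if a = b then 1 else 0 := by
  have := DFunLike.congr_fun (r.inv hx (co g β x b)) (Fr g β a x)
  rw [inv_co r hx hr, co_Fr hr] at this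
  simp only [map_sum, map_smul, sum_apply, smul_apply, smul_eq_mul] at this
  rw [← this]
  exact Finset.sum_congr rfl fun k _ => by rw [Gi_symm r hx hr, GG_symm r hx, mul_comm, GG]

theorem h_exp (u v : R4) : tb g x u v =
    ∑ e, ∑ f, tb g x u (Fr g β e x) * (Gi g β e f x * tb g x v (Fr g β f x)) := by
  have e1 : tb g x u = ∑ e, tb g x u (Fr g β e x) • co g β x e :=
    ContinuousLinearMap.ext fun w => by
      conv_lhs => rw [← sum_co (g := g) (β := β) hr w]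
      simp only [map_sum, map_smul, sum_apply, smul_apply, smul_eq_mul, mul_comm]
  have e2 : u = (tb g x).inverse (tb g x u) := r.ext hx fun w => by rw [r.inv hx]
  conv_lhs => rw [r.symm x hx, e2, e1]
  simp only [map_sum, map_smul, inv_co r hx hr, smul_eq_mul, Finset.mul_sum]

end pt

variable {q : Q6}

theorem xp_eq (hr : q.1.2.1 ≠ 0) : xp q.2 = co g β q.1 0 + tN g β q • co g β q.1 1 -
    p0 q • co g β q.1 2 - p1 q • co g β q.1 3 := by
  refine ContinuousLinearMap.ext fun v => ?_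
  simp [xp, co, tN, p0, p1]
  field_simp
  ring

theorem cv0_eq (x : R4) : cv 0 = -co g β x 1 := by simp [co]

section ham
variable (r : Rp g (tb g) D) (hx : q.1 ∈ D) (hr : q.1.2.1 ≠ 0)
include r hx hr

theorem ig_eq : ig g q.1 (cv 0) (cv 0) = Gi g β 1 1 q.1 ∧
    qb g q = qp g β q - tN g β q * Gi g β 1 1 q.1 ∧ ig g q.1 (xp q.2) (xp q.2) =
      Ip g β q - 2 * tN g β q * qp g β q + tN g β q ^ 2 * Gi g β 1 1 q.1 := by
  have k := ig_co (β := β) r hx hr
  have s := Gi_symm (β := β) r hx hr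
  simp only [ig] at k
  simp only [qb, ig, xp_eq (g := g) (β := β) hr, cv0_eq (g := g) (β := β) q.1, map_add, map_sub,
    map_neg, map_smul, add_apply, sub_apply, neg_apply, smul_apply, smul_eq_mul, k, qp, Ip, s 0 1,
    s 2 0, s 3 0, s 2 1, s 3 1, s 3 2]
  exact ⟨by ring, by ring, by ring⟩

theorem qd_eq : qd g q = qe g β q := by
  obtain ⟨h1, h2, h3⟩ := ig_eq (β := β) r hx hr
  rw [qd, h1, h2, h3, qe]
  ring

theorem Hm_eq (h1 : 0 < qb g q) (h2 : 0 < qd g q) (h3 : 0 < qp g β q) :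
    Hm g q = Hp g β q - tN g β q := by
  have d0 := Real.sqrt_pos.2 h2
  have d1 := Real.mul_self_sqrt h2.le
  obtain ⟨-, k2, k3⟩ := ig_eq (β := β) r hx hr
  have e := qd_eq (β := β) r hx hr
  rw [Hm, div_eq_iff (by positivity), k3, Hp, ← e, k2]
  rw [e, qe, ← qe, ← e] at d1
  nth_rewrite 3 [e] at d1
  rw [qe] at d1
  field_simp
  linear_combination tN g β q * d1

theorem fq_eq (h : Hm g q = Hp g β q - tN g β q) (i : Fin 4) :
    fq g q i = ∑ b, cq g β q i b • Fr g β b q.1 := by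
  fin_cases i
  · simp [fq, cq, Fin.sum_univ_four, Fr]
  · have e : xi g q = co g β q.1 0 + Hp g β q • co g β q.1 1 - p0 q • co g β q.1 2 -
        p1 q • co g β q.1 3 := by
      rw [xi, xp_eq (g := g) (β := β) hr, cv0_eq (g := g) (β := β) q.1, h]
      module
    show Wv g q = _
    simp only [Wv, cc, e, qd_eq (β := β) r hx hr, map_add, map_sub, map_smul, inv_co r hx hr, cq,
      Fin.sum_univ_four, Matrix.cons_val, Fin.mk_one]
    module
  · simp [fq, cq, Fin.sum_univ_four, Fr, tv, p0, smul_smul, mul_comm, add_comm]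
  · simp [fq, cq, Fin.sum_univ_four, Fr, tv, p1, smul_smul, mul_comm, add_comm]

end ham

theorem Rm_fr (h : R4 → B2) (y : R4) (c1 c2 c3 c4 : Fin 4 → ℝ) (F : Fin 4 → R4) :
    Rm h y (∑ a, c1 a • F a) (∑ a, c2 a • F a) (∑ a, c3 a • F a) (∑ a, c4 a • F a) =
      ∑ a, ∑ b, ∑ c, ∑ d, c1 a * (c2 b * (c3 c * (c4 d * Rm h y (F a) (F b) (F c) (F d)))) := by
  have k : ∀ {φ : R4 → ℝ}, IsLinearMap ℝ φ → ∀ c : Fin 4 → ℝ,
      φ (∑ a, c a • F a) = ∑ a, c a * φ (F a) := fun l c =>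
    (map_sum (IsLinearMap.mk' _ l) _ _).trans (Finset.sum_congr rfl fun i _ => l.map_smul _ _)
  have l1 : ∀ B C E, IsLinearMap ℝ fun A => Rm h y A B C E := fun B C E =>
    ⟨fun _ _ => by simp only [Rm, dC, Gm_add1, map_add, add_apply]; ring,
      fun _ _ => by simp only [Rm, dC, Gm_smul1, map_smul, smul_apply, smul_eq_mul]; ring⟩
  have l2 : ∀ A C E, IsLinearMap ℝ fun B => Rm h y A B C E := fun A C E =>
    ⟨fun _ _ => by simp only [Rm, dC, Gm_add1, map_add, add_apply]; ring,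
      fun _ _ => by simp only [Rm, dC, Gm_smul1, map_smul, smul_apply, smul_eq_mul]; ring⟩
  have l3 : ∀ A B E, IsLinearMap ℝ fun C => Rm h y A B C E := fun A B E =>
    ⟨fun _ _ => by simp only [Rm, dC, Gm_add2, map_add, add_apply]; ring,
      fun _ _ => by simp only [Rm, dC, Gm_smul2, map_smul, smul_apply, smul_eq_mul]; ring⟩
  have l4 : ∀ A B C, IsLinearMap ℝ fun E => Rm h y A B C E := fun A B C =>
    ⟨fun _ _ => by simp only [Rm, dC, Gm_add2, map_add, add_apply]; ring,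
      fun _ _ => by simp only [Rm, dC, Gm_smul2, map_smul, smul_apply, smul_eq_mul]; ring⟩
  simp only [k (l1 _ _ _), k (l2 _ _ _), k (l3 _ _ _), k (l4 _ _ _), Finset.mul_sum]

theorem rm_sm {E : Type} [NormedAddCommGroup E] [NormedSpace ℝ E] {h : R4 → B2} {π : E → R4}
    {u v w t : E → R4} {z : E} (r : Rp g h D) (hz : π z ∈ D) (hπ : ContDiffAt ℝ ∞ π z)
    (hu : ContDiffAt ℝ ∞ u z) (hv : ContDiffAt ℝ ∞ v z) (hw : ContDiffAt ℝ ∞ w z)
    (ht : ContDiffAt ℝ ∞ t z) :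
    ContDiffAt ℝ ∞ (fun x => Rm h (π x) (u x) (v x) (w x) (t x)) z := by
  have k0 := (r.at hz).comp z hπ
  have k1 := (at_fd (r.at hz)).comp z hπ
  have k2 := (at_fd (at_fd (r.at hz))).comp z hπ
  have fl : ∀ {G : Type} [NormedAddCommGroup G] [NormedSpace ℝ G] {c : E → R4 →L[ℝ] R4 →L[ℝ] G},
      ContDiffAt ℝ ∞ c z → ContDiffAt ℝ ∞ (fun x => (c x).flip) z := fun {G} _ _ _ hc =>
    (ContinuousLinearMap.flipₗᵢ ℝ R4 R4 G).contDiff.contDiffAt.comp z hc
  have d : ∀ {a b c e : E → R4}, ContDiffAt ℝ ∞ a z → ContDiffAt ℝ ∞ b z → ContDiffAt ℝ ∞ c z →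
      ContDiffAt ℝ ∞ e z → ContDiffAt ℝ ∞ (fun x => dC h (π x) (a x) (b x) (c x) (e x)) z :=
    fun a b c e => ((((((k2.clm_apply a).clm_apply b).clm_apply c).clm_apply e).add
      ((((k2.clm_apply a).clm_apply c).clm_apply b).clm_apply e)).sub
      ((((k2.clm_apply a).clm_apply e).clm_apply b).clm_apply c)).div_const _
  have m : ∀ {a b : E → R4}, ContDiffAt ℝ ∞ a z → ContDiffAt ℝ ∞ b z →
      ContDiffAt ℝ ∞ (fun x => Gm h (π x) (a x) (b x)) z := fun a b =>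
    ((r.inv_cd hz).comp z hπ).clm_apply (((((k1.clm_apply a).clm_apply b).add
      ((k1.clm_apply b).clm_apply a)).sub ((fl ((fl k1).clm_apply a)).clm_apply b)).const_smul _)
  exact (((d hu hv hw ht).sub (d hv hu hw ht)).sub ((k0.clm_apply (m hv hw)).clm_apply
    (m hu ht))).add ((k0.clm_apply (m hu hw)).clm_apply (m hv ht))

end Vale.Agent.P354SC
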