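import Vale.Agent.P354SC.Defs2
import Vale.Agent.P354YQ.Vg

/-!
GPZ, and the assembly of ABS.
-/

open scoped ContDiff
open Set Filter Topology

noncomputable section

namespace Vale.Agent.P354SC

open Vale.Agent.P354n (R4)
open Vale.Agent.P354R (Met)
open Vale.Agent.P354XE (Tw)
open Vale.Agent.P354SA hiding Cl
open Vale.Agent.P354YI (Oj)
open Vale.Agent.P354YQ (SA JB JD)

theorem ev_jb {J E V : Type} [NormedAddCommGroup E] [NormedSpace ℝ E] [NormedAddCommGroup V]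
    [NormedSpace ℝ V] {n : ℕ} {x : J → E} {f : J → E → V} {μ : J → ℝ} (h : Oj n x f μ)
    (s : ∀ j, SA (f j) (x j)) : ∀ᶠ B in atTop, ∀ j, JB n (f j) (x j) (B * μ j) :=
  let ⟨C, _, hC⟩ := h.bd
  (eventually_ge_atTop C).mono fun _ k j =>
    ⟨s j, (hC j).mono le_rfl (mul_le_mul_of_nonneg_right k (h.nn j))⟩

def dqL (l r : ℝ) : Q6 →L[ℝ] Q6 :=
  ((l • ContinuousLinearMap.fst ℝ ℝ _).prod ((r • cR).prod cY)).prodMap (r • .id ℝ Y2)
theorem dq_fd (l : ℝ) (q ξ : Q6) : HasFDerivAt (dq l q) (dqL l q.1.2.1) ξ :=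
  (dqL l q.1.2.1).hasFDerivAt.const_add q
theorem dq_cd (l : ℝ) (q : Q6) : ContDiff ℝ ∞ (dq l q) :=
  contDiff_const.add (dqL l q.1.2.1).contDiff
theorem dq_zero (l : ℝ) (q : Q6) : dq l q 0 = q := by simp [dq]
theorem dq_ev {l : ℝ} {q : Q6} {P : Q6 → Prop} (h : ∀ᶠ x in 𝓝 q, P x) :
    ∀ᶠ ξ in 𝓝 0, P (dq l q ξ) := (dq_cd l q).continuous.continuousAt.eventually (by rwa [dq_zero])
theorem sa_dq {l : ℝ} {q : Q6} {f : Q6 → ℝ} (h : SA f q) : SA (fun ξ => f (dq l q ξ)) 0 :=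
  SA.comp (by rwa [dq_zero]) (.of (dq_cd l q))

/-- The components of p. -/
def pc (a : Fin 2) (x : Q6) : ℝ := ![x.2.1, x.2.2] a
def pL (a : Fin 2) : Q6 →L[ℝ] ℝ :=
  ![(ContinuousLinearMap.fst ℝ ℝ ℝ).comp (.snd ℝ R4 Y2), (ContinuousLinearMap.snd ℝ ℝ ℝ).comp
    (.snd ℝ R4 Y2)] a
theorem pL_ap (a : Fin 2) (x : Q6) : pL a x = pc a x := by fin_cases a <;> rfl
theorem pc_le (a : Fin 2) (x : Q6) : |pc a x| ≤ ‖x.2‖ := by
  fin_cases a
  exacts [norm_fst_le x.2, norm_snd_le x.2]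

variable {g : Tw} {D : Set R4}

theorem zt_eq (m : Met g D) {x : Q6} (hx : x.1 ∈ D) (a : Fin 2) :
    zt g a x = g x.1 e1 (ey a) + pc a x * g x.1 e1 e1 := by
  rw [zt, tv, (m.lin _ hx _).map_add, (m.lin _ hx _).map_smul]
  rfl

/-- The part of Gp which depends on p. -/
def Gr (g : Tw) (a b : Fin 2) (x : Q6) : ℝ :=
  pc b x * g x.1 e1 (ey a) + pc a x * (g x.1 e1 (ey b) + pc b x * g x.1 e1 e1)

theorem Gp_eq (m : Met g D) {x : Q6} (hx : x.1 ∈ D) (a b : Fin 2) :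
    Gp g a b x = gm g a b x.1 + Gr g a b x := by
  have l := m.lin _ hx
  have s := m.symm _ hx
  have e : ∀ v a, g x.1 v (tv x.2 a) = g x.1 v (ey a) + pc a x * g x.1 v e1 := fun v a => by
    rw [tv, (l _).map_add, (l _).map_smul]
    rfl
  rw [Gp, s, e, s _ e1, s _ (ey a), e, e, s _ e1, Gr, add_assoc]
  rfl

theorem sa_g (o : IsOpen D) (m : Met g D) {q : Q6} (hq : q.1 ∈ D) (v w : R4) :
    SA (fun x : Q6 => g x.1 v w) q :=
  SA.comp (u := fun y => g y v w) (.of_on (m.smooth v w) o hq) (.of contDiff_fst)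

theorem sa_mul {f f' : Q6 → ℝ} {q : Q6} (h : SA f q) (k : SA f' q) : SA (fun x => f x * f' x) q :=
  (h.and k).mono fun _ m => m.1.mul m.2

theorem sa_pc (a : Fin 2) (q : Q6) : SA (pc a) q :=
  (SA.of (pL a).contDiff).congr (.of_forall fun x => (pL_ap a x).symm)

theorem ev_D (o : IsOpen D) {q : Q6} (hq : q.1 ∈ D) : ∀ᶠ x : Q6 in 𝓝 q, x.1 ∈ D :=
  continuous_fst.continuousAt.eventually (o.mem_nhds hq)

theorem sa_Gr (o : IsOpen D) (m : Met g D) {q : Q6} (hq : q.1 ∈ D) (a b : Fin 2) :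
    SA (Gr g a b) q := (sa_mul (sa_pc _ _) (sa_g o m hq _ _)).add (sa_mul (sa_pc _ _)
      ((sa_g o m hq _ _).add (sa_mul (sa_pc _ _) (sa_g o m hq _ _))))

theorem sa_Gp (o : IsOpen D) (m : Met g D) {q : Q6} (hq : q.1 ∈ D) (a b : Fin 2) :
    SA (Gp g a b) q := ((sa_g o m hq (ey a) (ey b)).add (sa_Gr o m hq a b)).congr
      ((ev_D o hq).mono fun _ h => Gp_eq m h a b)

theorem d3_zero (l : ℝ) (z : R4) : d3 l z 0 = z := by simp [d3]
theorem map_zero' {J : Type} (j : J) : ContinuousLinearMap.fst ℝ R4 Y2 ((0 : J → Q6) j) = 0 := rfl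

section fam
variable {J : Type} {n : ℕ} {l μ : J → ℝ} {q : J → Q6} {K : ℝ}

theorem o_lift {f : J → R4 → ℝ} (h0 : ∀ j, 0 ≤ μ j) (h : ∀ j, C3 n (l j) (f j) (q j).1 (K * μ j)) :
    Oj n 0 (fun j ξ => f j (dq (l j) (q j) ξ).1) μ :=
  P354YQ.oj_cl (x := 0) (.fst ℝ R4 Y2) (G := fun j ξ => f j (d3 (l j) (q j).1 ξ))
    ⟨fun j => P354YI.at_comp (by rw [map_zero', d3_zero]; exact (h j).1) (by unfold d3; fun_prop), h0, |K|,
      abs_nonneg _, fun j => (h j).2.mono le_rfl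
        (mul_le_mul_of_nonneg_right (le_abs_self K) (h0 j))⟩

theorem o_pc (h : ∀ j, ‖(q j).2‖ ≤ (q j).1.2.1) (a : Fin 2) :
    Oj n 0 (fun j ξ => pc a (dq (l j) (q j) ξ)) fun j => (q j).1.2.1 := by
  have r0 := fun j => (norm_nonneg _).trans (h j)
  refine ((Oj.const (v := fun j => pc a (q j)) r0 ⟨1, fun j => by
    rw [one_mul]; exact (pc_le a _).trans (h j)⟩).add (o_mull (o_par r0) (o_lin (pL a)))).congr'
    fun j ξ => ?_
  fin_cases a <;> rfl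

theorem o_d0 {f : J → Q6 → ℝ} (hl : ∀ j, 1 ≤ l j) (s : ∀ j, SA (f j) (q j))
    (h : Oj (n + 1) 0 (fun j ξ => f j (dq (l j) (q j) ξ)) μ) :
    Oj n 0 (fun j ξ => fderiv ℝ (f j) (dq (l j) (q j) ξ) (e0, 0)) μ := by
  refine (o_mulr (o_bd (r := fun j => (l j)⁻¹) (C := 1) fun j => ?_)
    (h.fd.clm (ContinuousLinearMap.apply ℝ ℝ ((e0, 0) : Q6)))).congr fun j => ?_
  · rw [abs_of_nonneg (inv_nonneg.2 (by linarith [hl j]))]
    exact inv_le_one_of_one_le₀ (hl j)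
  · filter_upwards [dq_ev (l := l j) (s j).ev] with ξ k
    have e : dqL (l j) (q j).1.2.1 (e0, 0) = l j • (e0, 0) := by simp [dqL, e0]
    have : l j ≠ 0 := by linarith [hl j]
    rw [ContinuousLinearMap.apply_apply, show fderiv ℝ (fun ξ => f j (dq (l j) (q j) ξ)) ξ = _ from
      (k.diff.hasFDerivAt.comp ξ (dq_fd _ _ ξ)).fderiv, ContinuousLinearMap.comp_apply, e,
      map_smul, smul_eq_mul, inv_mul_cancel_left₀ this]

end fam

theorem C3.val {n : ℕ} {l c : ℝ} {f : R4 → ℝ} {z : R4} (h : C3 n l f z c) : |f z| ≤ c := by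
  simpa only [d3_zero, Real.norm_eq_abs] using h.2.zero

/-- The data. -/
structure Dt where
  g : Tw
  D : Set R4
  β : Fin 2 → R4 → ℝ
  q : Q6
  (l e w d : ℝ)

theorem gpz : GPZ := by
  intro K0 E
  let c : ℝ := 4 / (1 + 2 * E ^ 2) ^ 2
  have c0 : 0 < c := by positivity
  have k0 : 0 < |K0| + 1 := by positivity
  refine ⟨1, le_rfl, max 1 (32 * (|K0| + 1) / c), c / (32 * (|K0| + 1)), by positivity,
    fun n K => ?_⟩
  let J := {x : Dt // IsOpen x.D ∧ Met x.g x.D ∧ x.q.1 ∈ x.D ∧ 1 ≤ x.q.1.2.1 ∧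
    ‖x.q.2‖ ≤ x.q.1.2.1 ∧ 1 ≤ x.l ∧ 0 ≤ x.w ∧ Hy (n + 2) K x.e x.w x.d x.l x.g x.β x.q.1}
  have r1 : ∀ j : J, 1 ≤ j.1.q.1.2.1 := fun j => j.2.2.2.2.1
  have r0 : ∀ j : J, 0 < j.1.q.1.2.1 := fun j => one_pos.trans_le (r1 j)
  have w0 : ∀ j : J, 0 ≤ j.1.w := fun j => j.2.2.2.2.2.2.2.1
  have hy := fun j : J => j.2.2.2.2.2.2.2.2
  have ev := fun j : J => dq_ev (l := j.1.l) (ev_D j.2.1 j.2.2.2.1)
  have oP := o_pc (n := n + 2) (l := fun j : J => j.1.l) fun j : J => j.2.2.2.2.2.1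
  have oA := o_lift (fun j => by have := r0 j; positivity) fun j => (hy j).A
  have oZ := fun a => o_lift (μ := 1) (fun _ => zero_le_one) fun j => by
    simpa using (hy j).ze a
  have oz := fun a => (oZ a).add ((o_mul (oP a) oA).mono le_rfl fun j => by
    have := r0 j
    have := inv_le_one_of_one_le₀ (r1 j)
    simp only [Pi.mul_apply, Pi.one_apply, pow_succ, pow_zero, one_mul, ← mul_assoc,
      mul_inv_cancel₀ (r0 j).ne']
    exact mul_le_one₀ this (by positivity) this)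
  have oR : ∀ a b, Oj (n + 2) 0 (fun (j : J) ξ => Gr j.1.g a b (dq j.1.l j.1.q ξ))
      fun j => j.1.q.1.2.1 := fun a b => (o_mull (oP b) (oZ a)).add (o_mull (oP a) (oz b))
  have sR := fun a b (j : J) => sa_Gr j.2.1 j.2.2.1 j.2.2.2.1 a b
  have sG := fun a b (j : J) => sa_Gp j.2.1 j.2.2.1 j.2.2.2.1 a b
  have h1 := fun a b => ev_jb (((((o_lift (fun j => sq_nonneg _) fun j => (hy j).ga a b).add
    ((oR a b).mono le_rfl fun j => by nlinarith [r1 j])).congr fun j => (ev j).mono fun _ k =>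
      Gp_eq j.2.2.1 k a b).le (n.le_add_right 2))) fun j => sa_dq (sG a b j)
  have h2 := fun a b => ev_jb ((((o_lift (fun j => by have := r0 j; have := w0 j; positivity)
    fun j => (hy j).ga0 a b).le (n.le_add_right 2)).add ((o_d0 (fun j => j.2.2.2.2.2.2.1) (sR a b)
      (oR a b).pred).mono le_rfl fun j => by
        have := mul_nonneg (sq_nonneg j.1.q.1.2.1) (w0 j)
        have e := mul_inv_cancel₀ (r0 j).ne'
        linear_combination this - j.1.q.1.2.1 * e)).congr (g := fun j ξ => fderiv ℝ (Gp j.1.g a b) (dq j.1.l j.1.q ξ) (e0, 0))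
      fun j => by
        filter_upwards [dq_ev (l := j.1.l) (ev_D j.2.1 j.2.2.2.1).eventually_nhds,
          dq_ev (l := j.1.l) (sR a b j).ev] with ξ k1 k2
        have s := SA.of_on (j.2.2.1.smooth (ey a) (ey b)) j.2.1 k1.self_of_nhds
        rw [EventuallyEq.fderiv_eq (𝕜 := ℝ) (k1.mono fun _ k => Gp_eq j.2.2.1 k a b),
          show fderiv ℝ (fun x => gm j.1.g a b x.1 + Gr j.1.g a b x) _ = _ from
            ((s.diff.hasFDerivAt.comp _ hasFDerivAt_fst).add k2.diff.hasFDerivAt).fderiv]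
        rfl)
    fun j => sa_dq (f := fun x => fderiv ℝ (Gp j.1.g a b) x (e0, 0))
      ((sG a b j).fderiv.clm (ContinuousLinearMap.apply ℝ ℝ ((e0, 0) : Q6)))
  have h3 := fun a => ev_jb (((oz a).congr (g := fun j ξ => zt j.1.g a (dq j.1.l j.1.q ξ))
    fun j => (ev j).mono fun _ k => zt_eq j.2.2.1 k a).le (n.le_add_right 2)) fun j =>
      sa_dq (((sa_g j.2.1 j.2.2.1 j.2.2.2.1 _ _).add (sa_mul (sa_pc _ _)
        (sa_g j.2.1 j.2.2.1 j.2.2.2.1 _ _))).congr ((ev_D j.2.1 j.2.2.2.1).mono fun _ k =>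
          zt_eq j.2.2.1 k a))
  have h4 := ev_jb (oA.mono (ν := fun j => j.1.q.1.2.1⁻¹) (n.le_add_right 2) fun j =>
    pow_le_of_le_one (inv_nonneg.2 (r0 j).le) (inv_le_one_of_one_le₀ (r1 j)) three_ne_zero)
    fun j => sa_dq (sa_g j.2.1 j.2.2.1 j.2.2.2.1 e1 e1)
  obtain ⟨B, B1, B2, k1, k2, k3, k4⟩ := ((eventually_ge_atTop 1).and ((eventually_ge_atTop
    (2 / c ^ 2)).and ((eventually_all.2 fun a => eventually_all.2 (h1 a)).and
    ((eventually_all.2 fun a => eventually_all.2 (h2 a)).and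
      ((eventually_all.2 h3).and h4))))).exists
  refine ⟨B, B1, fun g D β q l e w d o m hq hr hE hp hl he hw hd y0 y => ?_⟩
  rw [div_one] at hp
  have q1 := (le_max_left _ _).trans hr
  let j : J := ⟨⟨g, D, β, q, l, e, w, d⟩, o, m, hq, q1, hp, hl, hw.1, y⟩
  refine ⟨fun a b => ⟨k1 a b j, (k2 a b j).mono (mul_assoc _ _ _).ge⟩, ?_,
    fun a => (k3 a j).mono (mul_one B).le, (k4 j).mono (div_eq_mul_inv _ _).ge⟩
  have q0 : 0 < q.1.2.1 := one_pos.trans_le q1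
  have i1 : q.1.2.1⁻¹ ≤ c / (32 * (|K0| + 1)) := by
    rw [← inv_div]
    exact inv_anti₀ (by positivity) ((le_max_right _ _).trans hr)
  have i2 : (|K0| + 1) * (q.1.2.1⁻¹ + e) ≤ c / 16 := by
    refine (mul_le_mul_of_nonneg_left (add_le_add i1 he.2) k0.le).trans_eq ?_
    field_simp
    ring
  have i0 := inv_pos.2 q0
  have i3 := inv_le_one_of_one_le₀ q1
  have ii := mul_inv_cancel₀ q0.ne'
  have K1 : K0 ≤ |K0| + 1 := (le_abs_self _).trans (le_add_of_nonneg_right zero_le_one)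
  have b : ∀ a b, |Gp g a b q - q.1.2.1 ^ 2 * g0 a b q.1.2.2| ≤ q.1.2.1 ^ 2 * (c / 4) := by
    intro a b
    have p : ∀ a {t : ℝ}, |t| ≤ |K0| + 1 → |pc a q * t| ≤ q.1.2.1 * (|K0| + 1) := fun a t h => by
      rw [abs_mul]
      exact mul_le_mul ((pc_le a q).trans hp) h (abs_nonneg _) q0.le
    have t1 := p b ((y0.ze a).val.trans K1)
    have t2 := p a ((y0.ze b).val.trans K1)
    have t3 : |pc b q * g q.1 e1 e1| ≤ |K0| + 1 := by
      rw [abs_mul]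
      refine (mul_le_mul ((pc_le b q).trans hp) (y0.A.val.trans (mul_le_mul_of_nonneg_right K1
        (by positivity))) (abs_nonneg _) q0.le).trans ?_
      rw [mul_left_comm, pow_succ', mul_inv_cancel_left₀ q0.ne']
      exact mul_le_of_le_one_right k0.le (pow_le_one₀ i0.le i3)
    have t4 := p a t3
    have t5 := (y0.ga1 a b).trans (mul_le_mul_of_nonneg_right K1 (by have := he.1; positivity))
    have t6 : q.1.2.1 * (|K0| + 1) ≤ q.1.2.1 ^ 2 * ((|K0| + 1) * (q.1.2.1⁻¹ + e)) := by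
      have := mul_nonneg (sq_nonneg q.1.2.1) (mul_nonneg k0.le he.1)
      have e2 : q.1.2.1 ^ 2 * q.1.2.1⁻¹ = q.1.2.1 := by rw [sq, mul_inv_cancel_right₀ q0.ne']
      linear_combination this - (|K0| + 1) * e2
    have t7 := mul_le_mul_of_nonneg_left i2 (sq_nonneg q.1.2.1)
    rw [Gp_eq m hq, Gr, mul_add]
    rw [abs_le] at *
    constructor <;> linarith [t1.1, t1.2, t2.1, t2.2, t4.1, t4.2, t5.1, t5.2]
  have g1 : c ≤ 4 / qq q.1.2.2 ^ 2 := by
    have u1 := (sq_le_sq₀ (norm_nonneg _) ((norm_nonneg _).trans hE)).2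
      ((norm_fst_le q.1.2.2).trans hE)
    have u2 := (sq_le_sq₀ (norm_nonneg _) ((norm_nonneg _).trans hE)).2
      ((norm_snd_le q.1.2.2).trans hE)
    rw [Real.norm_eq_abs, sq_abs] at u1 u2
    exact div_le_div_of_nonneg_left (by norm_num) (pow_pos (qq_pos _) 2)
      (pow_le_pow_left₀ (qq_pos _).le (by unfold qq; linarith) 2)
  have b0 := (abs_le.1 (b 0 0)).1
  have b1 := (abs_le.1 (b 1 1)).1
  have b2 := b 0 1
  simp only [g0, if_true, Fin.zero_eq_one_iff, OfNat.ofNat_ne_one, if_false, mul_zero,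
    sub_zero] at b0 b1 b2
  have s0 : 0 < q.1.2.1 ^ 2 * c := by positivity
  have s1 := mul_le_mul_of_nonneg_left g1 (sq_nonneg q.1.2.1)
  have a0 : 3 / 4 * (q.1.2.1 ^ 2 * c) ≤ Gp g 0 0 q := by linarith
  have a1 : 3 / 4 * (q.1.2.1 ^ 2 * c) ≤ Gp g 1 1 q := by linarith
  have a2 := mul_le_mul a0 a1 (by positivity) (by linarith)
  have a3 := pow_le_pow_left₀ (abs_nonneg _) b2 2
  have a4 : B⁻¹ ≤ c ^ 2 / 2 := by
    rw [← inv_div]
    exact inv_anti₀ (by positivity) B2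
  have a5 := mul_le_mul_of_nonneg_right a4 (pow_pos q0 4).le
  rw [sq_abs] at a3
  exact ⟨by linarith, by linarith⟩

theorem cs_mono {n : ℕ} {l c c' : ℝ} {f : Q6 → ℝ} {q : Q6} (h : Cs n l f q c) (k : c ≤ c') :
    Cs n l f q c' := JB.mono h k

theorem abs_of (h1 : HAM) (h2 : CURV) : ABS := by
  intro K0 E
  obtain ⟨b1, hb1, r1, e1, he1, h1⟩ := h1 K0 E
  obtain ⟨b2, hb2, r2, e2, he2, h2⟩ := h2 K0 E
  obtain ⟨b3, hb3, r3, e3, he3, h3⟩ := gpz K0 E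
  refine ⟨max b1 (max b2 b3), le_max_of_le_left hb1, max (max 1 r1) (max r2 r3),
    min e1 (min e2 e3), by positivity, fun n K => ?_⟩
  obtain ⟨B1, hB1, h1⟩ := h1 n K
  obtain ⟨B2, hB2, h2⟩ := h2 n K
  obtain ⟨B3, hB3, h3⟩ := h3 n K
  refine ⟨max B1 (max B2 B3), le_max_of_le_left hB1,
    fun g D β q l e w d o m hq hr hE hp hl he hw hd y0 y => ?_⟩
  simp only [max_le_iff, mem_Icc, le_min_iff] at hr he
  have r0 : 0 < q.1.2.1 := one_pos.trans_le hr.1.1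
  have p : ∀ b, 1 ≤ b → b ≤ max b1 (max b2 b3) → ‖q.2‖ ≤ q.1.2.1 / b := fun b h k =>
    hp.trans (div_le_div_of_nonneg_left r0.le (by linarith) k)
  obtain ⟨k1, k2, k3, k4⟩ := h1 g D β q l e w d o m hq hr.1.2 hE (p _ hb1 (by simp)) hl
    ⟨he.1, he.2.1⟩ hw hd y0 y
  have k5 := h2 g D β q l e w d o m hq hr.2.1 hE (p _ hb2 (by simp)) hl ⟨he.1, he.2.2.1⟩ hw hd y0 y
  obtain ⟨k6, k7, k8, k9⟩ := h3 g D β q l e w d o m hq hr.2.2 hE (p _ hb3 (by simp)) hl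
    ⟨he.1, he.2.2.2⟩ hw hd y0 y
  have u1 : B1 ≤ max B1 (max B2 B3) := by simp
  have u2 : B2 ≤ max B1 (max B2 B3) := by simp
  have u3 : B3 ≤ max B1 (max B2 B3) := by simp
  have := hw.1
  have := he.1
  have := hd.1
  refine ⟨k1, ⟨cs_mono k2 (by gcongr), ⟨cs_mono k3.1 (by gcongr), k3.2⟩, fun a b =>
    ⟨cs_mono (k6 a b).1 (by gcongr), cs_mono (k6 a b).2 (by gcongr)⟩, ⟨le_trans (by gcongr) k7.1,
    k7.2⟩, fun a => cs_mono (k8 a) u3, cs_mono k9 (by gcongr), fun i j k o =>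
    cs_mono (k5 i j k o) (by gcongr)⟩, fun ϖ h1 h2 =>
    ⟨(k4 ϖ h1 h2).1.trans (by gcongr), (k4 ϖ h1 h2).2.mono (by gcongr)⟩⟩

end Vale.Agent.P354SC
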