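import Vale.Agent.P354SC.Farc
import Vale.Agent.P354SC.Gpz
import Vale.Agent.P354LA.Chf
import Vale.Agent.P354HF.Hyf
import Vale.Agent.P354YC.Hyn
import Vale.Agent.P354XY.Curv

namespace Vale.Agent.P354SC

theorem abs1 (h : HAM) : ABS := abs_of h (P354XY.curv h)

theorem farc1 (h : HAM) (z : HFZ) : P354SA.FARC :=
  farc_of P354LA.chf P354HF.hyf P354YC.hyn z (abs1 h)

end Vale.Agent.P354SC
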