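import Vale.Agent.P354XE.Defs

/-!
A local calculus for derivatives along words in a family of vector fields.
-/

open scoped ContDiff
open Set Filter Topology

noncomputable section

namespace Vale.Agent.P354SC

variable {E : Type} [NormedAddCommGroup E] [NormedSpace ℝ E] {ι : Type}

/-- The derivative along a vector field. -/
def Dv (X : E → E) (f : E → ℝ) (p : E) : ℝ := fderiv ℝ f p (X p)

/-- Smooth at p, and all derivatives along words of length at most n are at most c. -/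
def W (V : ι → E → E) : ℕ → (E → ℝ) → E → ℝ → Prop
  | 0, f, p, c => ContDiffAt ℝ ∞ f p ∧ |f p| ≤ c
  | n + 1, f, p, c => (ContDiffAt ℝ ∞ f p ∧ |f p| ≤ c) ∧ ∀ i, W V n (Dv (V i) f) p c

variable {V : ι → E → E} {n m : ℕ} {f g : E → ℝ} {p : E} {c d : ℝ} {X : E → E}

lemma Dv_congr (h : f =ᶠ[𝓝 p] g) (X : E → E) : Dv X f =ᶠ[𝓝 p] Dv X g :=
  (h.fderiv (𝕜 := ℝ)).mono fun q k => by simp only [Dv, k]

lemma sm_Dv (hX : ContDiffAt ℝ ∞ X p) (hf : ContDiffAt ℝ ∞ f p) : ContDiffAt ℝ ∞ (Dv X f) p :=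
  (hf.fderiv_right (m := ∞) le_rfl).clm_apply hX

lemma ev_dif (hf : ContDiffAt ℝ ∞ f p) : ∀ᶠ q in 𝓝 p, DifferentiableAt ℝ f q :=
  ((hf.of_le (m := 1) (by simp)).eventually (by simp)).mono fun _ k => k.differentiableAt (by simp)

lemma W.base (h : W V n f p c) : ContDiffAt ℝ ∞ f p ∧ |f p| ≤ c := by
  cases n with
  | zero => exact h
  | succ n => exact h.1

lemma W.sm (h : W V n f p c) : ContDiffAt ℝ ∞ f p := h.base.1
lemma W.le (h : W V n f p c) : |f p| ≤ c := h.base.2
lemma W.nn (h : W V n f p c) : 0 ≤ c := (abs_nonneg _).trans h.le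
lemma W.der (h : W V (n + 1) f p c) (i : ι) : W V n (Dv (V i) f) p c := h.2 i

lemma W.congr (h : W V n f p c) (k : g =ᶠ[𝓝 p] f) : W V n g p c := by
  have b : ContDiffAt ℝ ∞ g p ∧ |g p| ≤ c :=
    ⟨h.sm.congr_of_eventuallyEq k, by rw [k.self_of_nhds]; exact h.le⟩
  induction n generalizing f g with
  | zero => exact b
  | succ n ih =>
    refine ⟨b, fun i => ih (h.der i) (Dv_congr k _) ⟨?_, ?_⟩⟩
    · exact (h.der i).sm.congr_of_eventuallyEq (Dv_congr k _)
    · rw [(Dv_congr k _).self_of_nhds]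
      exact (h.der i).le

lemma W.up (h : W V n f p c) (k : c ≤ d) : W V n f p d := by
  induction n generalizing f with
  | zero => exact ⟨h.1, h.2.trans k⟩
  | succ n ih => exact ⟨⟨h.sm, h.le.trans k⟩, fun i => ih (h.der i)⟩

lemma W.pred (h : W V (n + 1) f p c) : W V n f p c := by
  induction n generalizing f with
  | zero => exact h.1
  | succ n ih => exact ⟨h.1, fun i => ih (h.der i)⟩

lemma W.down (h : W V n f p c) (k : m ≤ n) : W V m f p c := by
  induction k with
  | refl => exact h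
  | step _ ih => exact ih h.pred

lemma W_const (V : ι → E → E) (n : ℕ) (p : E) {r : ℝ} (h : |r| ≤ c) : W V n (fun _ => r) p c := by
  induction n generalizing r with
  | zero => exact ⟨contDiffAt_const, h⟩
  | succ n ih =>
    refine ⟨⟨contDiffAt_const, h⟩, fun i => (ih (r := 0) ?_).congr (.of_forall fun q => ?_)⟩
    · simpa using (abs_nonneg _).trans h
    · simp [Dv]

lemma W.add (h : W V n f p c) (k : W V n g p d) : W V n (fun q => f q + g q) p (c + d) := by
  have b : ContDiffAt ℝ ∞ (fun q => f q + g q) p ∧ |f p + g p| ≤ c + d :=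
    ⟨h.sm.add k.sm, (abs_add_le _ _).trans (add_le_add h.le k.le)⟩
  induction n generalizing f g with
  | zero => exact b
  | succ n ih =>
    refine ⟨b, fun i => (ih (h.der i) (k.der i) ⟨(h.der i).sm.add (k.der i).sm,
      (abs_add_le _ _).trans (add_le_add (h.der i).le (k.der i).le)⟩).congr ?_⟩
    filter_upwards [ev_dif h.sm, ev_dif k.sm] with q h1 h2
    simp only [Dv, fderiv_fun_add h1 h2, add_apply]

lemma Dv_mul (hf : DifferentiableAt ℝ f p) (hg : DifferentiableAt ℝ g p) (X : E → E) :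
    Dv X (fun q => f q * g q) p = Dv X f p * g p + f p * Dv X g p := by
  simp only [Dv, fderiv_fun_mul hf hg, add_apply, smul_apply, smul_eq_mul]
  ring

lemma W.mul (h : W V n f p c) (k : W V n g p d) :
    W V n (fun q => f q * g q) p (2 ^ n * (c * d)) := by
  have b : ∀ {n f g}, W V n f p c → W V n g p d → |f p * g p| ≤ c * d := fun h k => by
    rw [abs_mul]
    exact mul_le_mul h.le k.le (abs_nonneg _) h.nn
  induction n generalizing f g with
  | zero => exact ⟨h.sm.mul k.sm, by simpa using b h k⟩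
  | succ n ih =>
    refine ⟨⟨h.sm.mul k.sm, (b h k).trans
      (le_mul_of_one_le_left (mul_nonneg h.nn k.nn) (one_le_pow₀ one_le_two))⟩, fun i => ?_⟩
    refine (((ih (h.der i) k.pred).add (ih h.pred (k.der i))).congr ?_).up (le_of_eq (by ring))
    filter_upwards [ev_dif h.sm, ev_dif k.sm] with q h1 h2 using Dv_mul h1 h2 _

lemma W.smul (h : W V n f p c) (r : ℝ) : W V n (fun q => r * f q) p (|r| * c) := by
  have b : ∀ {n f}, W V n f p c → ContDiffAt ℝ ∞ (fun q => r * f q) p ∧ |r * f p| ≤ |r| * c :=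
    fun h => ⟨contDiffAt_const.mul h.sm, by
      rw [abs_mul]
      exact mul_le_mul_of_nonneg_left h.le (abs_nonneg _)⟩
  induction n generalizing f with
  | zero => exact b h
  | succ n ih =>
    refine ⟨b h, fun i => (ih (h.der i)).congr ?_⟩
    filter_upwards [ev_dif h.sm] with q h1
    simp only [Dv, fderiv_const_mul h1, smul_apply, smul_eq_mul]

lemma W.neg (h : W V n f p c) : W V n (fun q => -f q) p c := by
  simpa using h.smul (-1)

lemma W.sub (h : W V n f p c) (k : W V n g p d) : W V n (fun q => f q - g q) p (c + d) := by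
  simpa only [sub_eq_add_neg] using h.add k.neg

/-- A function of one variable, all of whose derivatives are bounded. -/
lemma W.comp (φ : ℕ → ℝ → ℝ) {U : Set ℝ} (hU : IsOpen U) (hs : ∀ k, ContDiffOn ℝ ∞ (φ k) U)
    (hφ : ∀ k, ∀ x ∈ U, HasDerivAt (φ k) (φ (k + 1) x) x) (n : ℕ) : ∀ k, ∀ {f : E → ℝ} {c b : ℝ},
    1 ≤ c → f p ∈ U → (∀ j, j ≤ n → |φ (k + j) (f p)| ≤ b) →
      ContDiffAt ℝ ∞ f p → (∀ m, n = m + 1 → ∀ i, W V m (Dv (V i) f) p c) →
      W V n (fun q => φ k (f q)) p (b * (2 ^ n * c) ^ n) := by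
  induction n with
  | zero =>
    intro k f c b _ hf hb h1 _
    exact ⟨((hs k).contDiffAt (hU.mem_nhds hf)).comp p h1, by simpa using hb 0 le_rfl⟩
  | succ n ih =>
    intro k f c b hc hf hb h1 h2
    have b0 : 0 ≤ b := (abs_nonneg _).trans (hb 0 (Nat.zero_le _))
    have c1 : 1 ≤ 2 ^ n * c := one_le_mul_of_one_le_of_one_le (one_le_pow₀ one_le_two) hc
    have c2 : 2 ^ n * c ≤ 2 ^ (n + 1) * c := by rw [pow_succ]; nlinarith
    refine ⟨⟨((hs k).contDiffAt (hU.mem_nhds hf)).comp p h1, (hb 0 (Nat.zero_le _)).trans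
      (le_mul_of_one_le_right b0 (one_le_pow₀ (c1.trans c2)))⟩, fun i => ?_⟩
    have h3 := ih (k + 1) hc hf (fun j hj => by
      rw [add_assoc, add_comm 1 j]
      exact hb (j + 1) (by omega)) h1 (fun m hm i => by
        subst hm
        exact (h2 _ rfl i).pred)
    refine ((h3.mul (h2 n rfl i)).congr ?_).up ?_
    · filter_upwards [ev_dif h1, h1.continuousAt.eventually_mem (hU.mem_nhds hf)] with q q1 q2
      have := ((hφ k _ q2).comp_hasFDerivAt q q1.hasFDerivAt).fderiv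
      have e : (fun q => φ k (f q)) = φ k ∘ f := rfl
      simp only [Dv, e, this, smul_apply, smul_eq_mul]
    · have h4 := pow_le_pow_left₀ (zero_le_one.trans c1) c2 n
      have h5 := mul_le_mul h4 c2 (zero_le_one.trans c1) (pow_nonneg (by linarith) _)
      rw [pow_succ (2 ^ (n + 1) * c)]
      nlinarith [mul_le_mul_of_nonneg_left h5 b0]

/-! Families -/

/-- A family of points with vector fields. -/
structure Fm (E ι : Type) [NormedAddCommGroup E] [NormedSpace ℝ E] where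
  J : Type
  V : J → ι → E → E
  p : J → E

variable (F : Fm E ι)

/-- The class of families of functions of size w. -/
def Cl (n : ℕ) (w : F.J → ℝ) (f : F.J → E → ℝ) : Prop :=
  ∃ C, 0 ≤ C ∧ ∀ j, W (F.V j) n (f j) (F.p j) (C * w j)

variable {F} {w w' : F.J → ℝ} {u v : F.J → E → ℝ}

lemma Cl.congr (h : Cl F n w u) (k : ∀ j, v j =ᶠ[𝓝 (F.p j)] u j) : Cl F n w v :=
  h.imp fun _ h => ⟨h.1, fun j => (h.2 j).congr (k j)⟩

lemma Cl.sm (h : Cl F n w u) (j : F.J) : ContDiffAt ℝ ∞ (u j) (F.p j) := (h.choose_spec.2 j).sm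

lemma Cl.down (h : Cl F n w u) (k : m ≤ n) : Cl F m w u :=
  h.imp fun _ h => ⟨h.1, fun j => (h.2 j).down k⟩

lemma Cl.pred (h : Cl F (n + 1) w u) : Cl F n w u := h.down n.le_succ

lemma Cl.der (h : Cl F (n + 1) w u) (i : ι) : Cl F n w fun j => Dv (F.V j i) (u j) :=
  h.imp fun _ h => ⟨h.1, fun j => (h.2 j).der i⟩

lemma Cl.mono (h : Cl F n w u) {K : ℝ} (hK : 0 ≤ K) (k : ∀ j, w j ≤ K * w' j) : Cl F n w' u := by
  obtain ⟨C, C0, h⟩ := h
  exact ⟨C * K, mul_nonneg C0 hK, fun j => (h j).up (by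
    rw [mul_assoc]
    exact mul_le_mul_of_nonneg_left (k j) C0)⟩

lemma Cl.up (h : Cl F n w u) (k : ∀ j, w j ≤ w' j) : Cl F n w' u :=
  h.mono zero_le_one fun j => by rw [one_mul]; exact k j

lemma Cl.wt (h : Cl F n w u) (k : ∀ j, w j = w' j) : Cl F n w' u := h.up fun j => (k j).le

lemma Cl.add (h : Cl F n w u) (k : Cl F n w v) : Cl F n w fun j q => u j q + v j q := by
  obtain ⟨C, C0, h⟩ := h
  obtain ⟨D, D0, k⟩ := k
  exact ⟨C + D, add_nonneg C0 D0, fun j => ((h j).add (k j)).up (le_of_eq (by ring))⟩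

lemma Cl.neg (h : Cl F n w u) : Cl F n w fun j q => -u j q :=
  h.imp fun _ h => ⟨h.1, fun j => (h.2 j).neg⟩

lemma Cl.sub (h : Cl F n w u) (k : Cl F n w v) : Cl F n w fun j q => u j q - v j q := by
  simpa only [sub_eq_add_neg] using h.add k.neg

lemma Cl.mul (h : Cl F n w u) (k : Cl F n w' v) :
    Cl F n (fun j => w j * w' j) fun j q => u j q * v j q := by
  obtain ⟨C, C0, h⟩ := h
  obtain ⟨D, D0, k⟩ := k
  exact ⟨2 ^ n * (C * D), by positivity, fun j => ((h j).mul (k j)).up (le_of_eq (by ring))⟩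

lemma Cl.mul1 (h : Cl F n w u) (k : Cl F n (fun _ => 1) v) :
    Cl F n w fun j q => u j q * v j q := (h.mul k).wt fun _ => mul_one _

lemma Cl.one_mul (h : Cl F n (fun _ => 1) u) (k : Cl F n w v) :
    Cl F n w fun j q => u j q * v j q := (h.mul k).wt fun _ => _root_.one_mul _

lemma cl_par {r : F.J → ℝ} {K : ℝ} (hK : 0 ≤ K) (h : ∀ j, |r j| ≤ K * w j) :
    Cl F n w fun j _ => r j := ⟨K, hK, fun j => W_const _ _ _ (h j)⟩

lemma cl_const (r : ℝ) : Cl F n (fun _ => 1) fun _ _ => r :=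
  cl_par (abs_nonneg r) fun _ => by simp

lemma cl_zero (hw : ∀ j, 0 ≤ w j) : Cl F n w fun _ _ => 0 :=
  cl_par le_rfl fun j => by simp

lemma Cl.smul (h : Cl F n w u) (r : ℝ) : Cl F n w fun j q => r * u j q := (cl_const r).one_mul h

lemma cl_sum {κ : Type} (s : Finset κ) (hw : ∀ j, 0 ≤ w j) {u : κ → F.J → E → ℝ}
    (h : ∀ k ∈ s, Cl F n w (u k)) : Cl F n w fun j q => ∑ k ∈ s, u k j q := by
  classical
  induction s using Finset.induction_on with
  | empty => simpa using cl_zero hw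
  | insert k s hk ih =>
    simpa only [Finset.sum_insert hk] using (h k (Finset.mem_insert_self _ _)).add
      (ih fun k' h' => h k' (Finset.mem_insert_of_mem h'))

lemma cl_succ [Fintype ι] (hw : ∀ j, 0 ≤ w j) (h : Cl F 0 w u)
    (k : ∀ i, Cl F n w fun j => Dv (F.V j i) (u j)) : Cl F (n + 1) w u := by
  obtain ⟨C, C0, h⟩ := h
  choose D D0 k using k
  have s0 : 0 ≤ ∑ i, D i := Finset.sum_nonneg fun i _ => D0 i
  refine ⟨C + ∑ i, D i, add_nonneg C0 s0, fun j => ⟨((h j).up ?_).base, fun i => (k i j).up ?_⟩⟩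
  · exact mul_le_mul_of_nonneg_right (le_add_of_nonneg_right s0) (hw j)
  · exact mul_le_mul_of_nonneg_right ((Finset.single_le_sum (fun i _ => D0 i)
      (Finset.mem_univ i)).trans (le_add_of_nonneg_left C0)) (hw j)

/-- Real powers of a function which is bounded above and below. -/
lemma Cl.rpow (h : Cl F n (fun _ => 1) u) {μ : ℝ} (hμ : 0 < μ) (k : ∀ j, μ ≤ u j (F.p j)) (t : ℝ) :
    Cl F n (fun _ => 1) fun j q => u j q ^ t := by
  obtain ⟨C, C0, h⟩ := h
  let φ : ℕ → ℝ → ℝ := fun k x => (∏ i ∈ Finset.range k, (t - i)) * x ^ (t - k)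
  have hs : ∀ k, ContDiffOn ℝ ∞ (φ k) (Ioi 0) := fun k =>
    contDiffOn_const.mul (contDiffOn_id.rpow_const_of_ne fun x hx => ne_of_gt hx)
  have hφ : ∀ k, ∀ x ∈ Ioi (0 : ℝ), HasDerivAt (φ k) (φ (k + 1) x) x := fun k x hx => by
    refine ((Real.hasDerivAt_rpow_const (Or.inl (ne_of_gt hx))).const_mul _).congr_deriv ?_
    simp only [φ, Finset.prod_range_succ]
    push_cast
    rw [← sub_sub]
    ring
  have hc : ∀ k, ∃ b, ∀ x ∈ Icc μ C, |φ k x| ≤ b := fun k =>
    isCompact_Icc.exists_bound_of_continuousOn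
      ((hs k).continuousOn.mono fun x hx => hμ.trans_le hx.1)
  choose b hb using hc
  refine ⟨(∑ k ∈ Finset.range (n + 1), |b k|) * (2 ^ n * (C + 1)) ^ n, by positivity, fun j => ?_⟩
  have h1 := W.comp (V := F.V j) φ isOpen_Ioi hs hφ n 0 (c := C + 1)
    (b := ∑ k ∈ Finset.range (n + 1), |b k|) (by linarith) (hμ.trans_le (k j)) (fun i hi => by
      rw [zero_add]
      refine ((hb i _ ⟨k j, (le_abs_self _).trans (by simpa using (h j).le)⟩).trans
        (le_abs_self _)).trans ?_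
      exact Finset.single_le_sum (f := fun k => |b k|) (fun _ _ => abs_nonneg _)
        (Finset.mem_range.2 (by omega))) (h j).sm (fun m hm i => by
      subst hm
      exact ((h j).der i).up (by linarith))
  simpa [φ] using h1

lemma Cl.inv (h : Cl F n (fun _ => 1) u) {μ : ℝ} (hμ : 0 < μ) (k : ∀ j, μ ≤ u j (F.p j)) :
    Cl F n (fun _ => 1) fun j q => (u j q)⁻¹ := by
  simpa only [Real.rpow_neg_one] using h.rpow hμ k (-1)

lemma Cl.sqrt (h : Cl F n (fun _ => 1) u) {μ : ℝ} (hμ : 0 < μ) (k : ∀ j, μ ≤ u j (F.p j)) :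
    Cl F n (fun _ => 1) fun j q => √(u j q) := by
  simpa only [Real.sqrt_eq_rpow] using h.rpow hμ k (1 / 2)

/-! The words of P354XE -/

open Vale.Agent.P354n (R4)
open Vale.Agent.P354XE

lemma wd_snoc (M a : ℝ) (α : List (Fin 5)) (i : Fin 5) (f : R4 → ℝ) :
    wd M a (α ++ [i]) f = wd M a α (Dv (vf M a i) f) := by
  induction α with
  | nil => rfl
  | cons k α ih =>
    funext p
    show fderiv ℝ (wd M a (α ++ [i]) f) p _ = fderiv ℝ (wd M a α _) p _
    rw [ih]

lemma W_of {M a : ℝ} {p : R4} (hV : ∀ i, ContDiffAt ℝ ∞ (vf M a i) p) {f : R4 → ℝ}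
    (hf : ContDiffAt ℝ ∞ f p) (h : ∀ α : List (Fin 5), α.length ≤ n → |wd M a α f p| ≤ c) :
    W (vf M a) n f p c := by
  induction n generalizing f with
  | zero => exact ⟨hf, h [] le_rfl⟩
  | succ n ih =>
    refine ⟨⟨hf, h [] (Nat.zero_le _)⟩, fun i => ih (sm_Dv (hV i) hf) fun α hα => ?_⟩
    rw [← wd_snoc]
    exact h _ (by simpa using hα)

lemma W.wd {M a : ℝ} {p : R4} {f : R4 → ℝ} (h : W (vf M a) n f p c) (α : List (Fin 5))
    (hα : α.length ≤ n) : |wd M a α f p| ≤ c := by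
  induction α using List.reverseRecOn generalizing f n with
  | nil => exact h.le
  | append_singleton α i ih =>
    obtain ⟨n, rfl⟩ : ∃ m, n = m + 1 := ⟨n - 1, by simp at hα; omega⟩
    rw [wd_snoc]
    exact ih (h.der i) (by simpa using hα)

/-- The bounds Wb in terms of W. -/
lemma Wb.W {M a c' : ℝ} {p : R4} (hV : ∀ i, ContDiffAt ℝ ∞ (vf M a i) p) {f : R4 → ℝ}
    (hf : ContDiffAt ℝ ∞ f p) (h : Wb M a n f p c c') :
    W (vf M a) n f p c ∧ W (vf M a) n (Dv (vf M a 0) f) p c' :=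
  ⟨W_of hV hf fun α hα => (h α hα).1, W_of hV (sm_Dv (hV 0) hf) fun α hα => (h α hα).2⟩

end Vale.Agent.P354SC
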